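import Vale.Agent.P128.B6.Der
import Vale.Agent.P128.TA3.Main

/-! P128 B6/Cst (TASK): the conjugate function is constant on continua inside `K`.

Plan. Take `ℓ` from `exists_log`; it is holomorphic on the open set `Cᶜ ⊇ Kᶜ`. Let
`θ z = (ℓ z).im`; for `z ∉ C`, `fderiv ℝ θ z w = (((z-p)⁻¹ - (z-q)⁻¹) * w).im`, so
`gr θ z = ker (z - p) - ker (z - q) =: k z`. For `M = n + 1` let `ψ z = M * sin (θ z / M)`; then
`fderiv ψ z = cos (θ z / M) • fderiv θ z`, `|ψ| ≤ M`, `|ψ| ≤ |θ| ≤ ‖ℓ‖`. Decay: for large `‖z‖`,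
`‖ℓ z‖ ≤ 1/2`, and `Complex.norm_exp_sub_one_sub_id_le` gives
`‖ℓ z‖ ≤ 2 ‖exp (ℓ z) - 1‖ = 2 ‖q - p‖ / ‖z - q‖ ≤ 4 ‖q - p‖ / ‖z‖`. `GM.outer_tail` (integrability by
comparison with `phi_int`, `gr_symm`) gives `∫ cos (θ z / M) * fderiv u z (k z) = 0` over `Kᶜ`;
dominated convergence as `n → ∞` gives `∫ fderiv u z (k z) = 0`, and `cj_sub` finishes. -/

namespace Vale.Agent.P128

open MeasureTheory Set Metric Filter Topology
open scoped ENNReal NNReal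

/-- The real linear map `w ↦ (d * w).im`. -/
noncomputable def b6Cst_L (d : ℂ) : ℂ →L[ℝ] ℝ :=
  Complex.imCLM.comp (ContinuousLinearMap.mul ℝ ℂ d)

theorem b6Cst_app (d w : ℂ) : b6Cst_L d w = (d * w).im := rfl

theorem b6Cst_norm (d : ℂ) : ‖b6Cst_L d‖ ≤ ‖d‖ := by
  refine ContinuousLinearMap.opNorm_le_bound _ (norm_nonneg _) fun w => ?_
  rw [b6Cst_app, Real.norm_eq_abs, ← norm_mul]
  exact Complex.abs_im_le_norm _

theorem b6Cst_der {ℓ : ℂ → ℂ} {d z : ℂ} (h : HasDerivAt ℓ d z) {M : ℝ} (hM : 0 < M) :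
    HasFDerivAt (fun w => M * Real.sin ((ℓ w).im / M))
      (Real.cos ((ℓ z).im / M) • b6Cst_L d) z := by
  have h1 : HasFDerivAt (fun w => (ℓ w).im) (b6Cst_L d) z := by
    have h2 := Complex.imCLM.hasFDerivAt.comp z (h.hasFDerivAt.restrictScalars ℝ)
    refine h2.congr_fderiv (ContinuousLinearMap.ext fun w => ?_)
    rw [b6Cst_app, mul_comm]
    rfl
  have h3 : HasFDerivAt (fun w => (ℓ w).im / M) (M⁻¹ • b6Cst_L d) z := by
    have h4 := h1.const_mul M⁻¹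
    refine h4.congr_of_eventuallyEq (Eventually.of_forall fun w => ?_)
    simp only [div_eq_inv_mul]
  have h5 := (h3.sin).const_mul M
  refine h5.congr_fderiv (ContinuousLinearMap.ext fun w => ?_)
  simp only [ContinuousLinearMap.smul_apply, smul_eq_mul]
  field_simp

theorem b6Cst_gr {ψ : ℂ → ℝ} {a : ℝ} {z p q : ℂ}
    (h : HasFDerivAt ψ (a • b6Cst_L ((z - p)⁻¹ - (z - q)⁻¹)) z) :
    gr ψ z = a • (ker (z - p) - ker (z - q)) := by
  have h1 : ker (z - p) - ker (z - q) =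
      Complex.I * (starRingEnd ℂ) ((z - p)⁻¹ - (z - q)⁻¹) := by
    simp only [ker, map_sub, map_inv₀, div_eq_mul_inv]
    ring
  rw [h1, gr, h.fderiv]
  generalize (z - p)⁻¹ - (z - q)⁻¹ = d
  simp only [ContinuousLinearMap.smul_apply, smul_eq_mul, b6Cst_app]
  apply Complex.ext <;> simp

theorem b6Cst_decay {C : Set ℂ} (hC : IsCompact C) {ℓ : ℂ → ℂ} {p q : ℂ}
    (hℓ : ∀ z ∉ C, HasDerivAt ℓ ((z - p)⁻¹ - (z - q)⁻¹) z ∧
      Complex.exp (ℓ z) = (z - p) / (z - q))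
    (hlim : Tendsto ℓ (Bornology.cobounded ℂ) (𝓝 0)) :
    ∃ R₀ : ℝ, ∀ z, R₀ ≤ ‖z‖ → ‖ℓ z‖ * ‖z‖ ≤ 4 * ‖q - p‖ := by
  have h1 : ∀ᶠ z in Bornology.cobounded ℂ, ‖ℓ z‖ < 1 / 2 := by
    have := hlim.norm
    rw [norm_zero] at this
    exact this.eventually (gt_mem_nhds (by norm_num))
  obtain ⟨R₁, -, hR₁⟩ := Filter.hasBasis_cobounded_norm.eventually_iff.1 h1
  obtain ⟨R₂, hR₂⟩ := hC.isBounded.exists_norm_le
  refine ⟨max R₁ (max (R₂ + 1) (2 * ‖q‖ + 1)), fun z hz => ?_⟩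
  have hz1 : R₁ ≤ ‖z‖ := (le_max_left _ _).trans hz
  have hz2 : R₂ + 1 ≤ ‖z‖ := ((le_max_left _ _).trans (le_max_right _ _)).trans hz
  have hz3 : 2 * ‖q‖ + 1 ≤ ‖z‖ := ((le_max_right _ _).trans (le_max_right _ _)).trans hz
  have hzC : z ∉ C := fun hzC => by linarith [hR₂ z hzC]
  have hs : ‖ℓ z‖ < 1 / 2 := hR₁ hz1
  have h2 := Complex.norm_exp_sub_one_sub_id_le (x := ℓ z) (by linarith)
  have h3 : ‖z‖ ≤ 2 * ‖z - q‖ := by
    have := norm_sub_norm_le z q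
    linarith
  have hzq : 0 < ‖z - q‖ := by linarith [norm_nonneg q]
  have h4 : ‖Complex.exp (ℓ z) - 1‖ * ‖z - q‖ = ‖q - p‖ := by
    rw [← norm_mul, (hℓ z hzC).2, sub_mul, div_mul_cancel₀ _ (norm_pos_iff.1 hzq)]
    congr 1
    ring
  have h5 : ‖ℓ z‖ ≤ ‖Complex.exp (ℓ z) - 1‖ + ‖Complex.exp (ℓ z) - 1 - ℓ z‖ := by
    have := norm_sub_le (Complex.exp (ℓ z) - 1) (Complex.exp (ℓ z) - 1 - ℓ z)
    rwa [sub_sub_cancel] at this
  have h6 : ‖ℓ z‖ ≤ 2 * ‖Complex.exp (ℓ z) - 1‖ := by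
    nlinarith [norm_nonneg (ℓ z)]
  calc ‖ℓ z‖ * ‖z‖ ≤ (2 * ‖Complex.exp (ℓ z) - 1‖) * (2 * ‖z - q‖) :=
        mul_le_mul h6 h3 (norm_nonneg _) (by positivity)
    _ = 4 * ‖q - p‖ := by rw [← h4]; ring

theorem cj_const {c : ℝ} {u : ℂ → ℝ} {K : Set ℂ} (h : GM c u K) {C : Set ℂ} (hCK : C ⊆ K)
    (hC : IsCompact C) (hc : IsPreconnected C) {p q : ℂ} (hp : p ∈ C) (hq : q ∈ C) :
    cj u K p = cj u K q := by
  obtain ⟨ℓ, hℓ, hlim⟩ := exists_log hC hc hp hq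
  have hKo : IsOpen Kᶜ := h.closed.isOpen_compl
  have hCo : IsOpen Cᶜ := hC.isClosed.isOpen_compl
  have hKC : ∀ z ∉ K, z ∉ C := fun z hz hzC => hz (hCK hzC)
  have hsm : ∀ z ∉ K, ContDiffAt ℝ 1 (fun w => (ℓ w).im) z := by
    intro z hz
    have hd : DifferentiableOn ℂ ℓ Cᶜ := fun w hw =>
      (hℓ w hw).1.differentiableAt.differentiableWithinAt
    have h1 : ContDiffAt ℂ 1 ℓ z := (hd.analyticAt (hCo.mem_nhds (hKC z hz))).contDiffAt
    exact Complex.imCLM.contDiff.contDiffAt.comp z (h1.restrict_scalars ℝ)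
  obtain ⟨R₀, hR₀⟩ := b6Cst_decay hC hℓ hlim
  obtain ⟨hI, -⟩ := phi_int h p q
  set g : ℂ → ℝ := fun z => fderiv ℝ u z (ker (z - p) - ker (z - q)) with hg
  have hmeas : ∀ M : ℝ, AEStronglyMeasurable (fun z => Real.cos ((ℓ z).im / M))
      (volume.restrict Kᶜ) := by
    intro M
    refine ContinuousOn.aestronglyMeasurable (fun z hz => ?_) hKo.measurableSet
    exact (Real.continuous_cos.continuousAt.comp
      ((hsm z hz).continuousAt.div_const M)).continuousWithinAt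
  have hint : ∀ M : ℝ, IntegrableOn (fun z => Real.cos ((ℓ z).im / M) * g z) Kᶜ := fun M =>
    Integrable.bdd_mul (c := 1) hI (hmeas M)
      (Eventually.of_forall fun z => by rw [Real.norm_eq_abs]; exact Real.abs_cos_le_one _)
  have hzero : ∀ M : ℝ, 0 < M → ∫ z in Kᶜ, Real.cos ((ℓ z).im / M) * g z = 0 := by
    intro M hM
    have hder : ∀ z ∉ K, HasFDerivAt (fun w => M * Real.sin ((ℓ w).im / M))
        (Real.cos ((ℓ z).im / M) • b6Cst_L ((z - p)⁻¹ - (z - q)⁻¹)) z := fun z hz =>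
      b6Cst_der (hℓ z (hKC z hz)).1 hM
    have heq : ∀ z ∈ Kᶜ, fderiv ℝ (fun w => M * Real.sin ((ℓ w).im / M)) z (gr u z) =
        Real.cos ((ℓ z).im / M) * g z := by
      intro z hz
      rw [← gr_symm, b6Cst_gr (hder z hz), map_smul, smul_eq_mul]
    have hab : ∀ z, |M * Real.sin ((ℓ z).im / M)| ≤ M := by
      intro z
      rw [abs_mul, abs_of_pos hM]
      exact mul_le_of_le_one_right hM.le (Real.abs_sin_le_one _)
    have hab2 : ∀ z, |M * Real.sin ((ℓ z).im / M)| ≤ ‖ℓ z‖ := by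
      intro z
      rw [abs_mul, abs_of_pos hM]
      have h1 : |Real.sin ((ℓ z).im / M)| ≤ |(ℓ z).im / M| := Real.abs_sin_le_abs
      rw [abs_div, abs_of_pos hM, le_div_iff₀ hM] at h1
      have h2 := Complex.abs_im_le_norm (ℓ z)
      linarith
    have hqp : 0 ≤ 4 * ‖q - p‖ := by positivity
    rw [← setIntegral_congr_fun hKo.measurableSet heq]
    refine h.outer_tail (p := p) (q := q) (M := M + 4 * ‖q - p‖) (R₀ := R₀) ?_ ?_ ?_ ?_ ?_
    · intro z hz _ _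
      exact contDiffAt_const.mul
        (Real.contDiff_sin.contDiffAt.comp z ((hsm z hz).div_const M))
    · intro z
      linarith [hab z]
    · intro z hz
      have h1 := mul_le_mul_of_nonneg_right (hab2 z) (norm_nonneg z)
      linarith [hR₀ z hz]
    · intro ρ hρ
      refine ⟨ρ⁻¹ + ρ⁻¹, fun z hz h1 h2 => ?_⟩
      rw [(hder z hz).fderiv, norm_smul, Real.norm_eq_abs]
      have h3 := b6Cst_norm ((z - p)⁻¹ - (z - q)⁻¹)
      have h4 := norm_sub_le (z - p)⁻¹ (z - q)⁻¹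
      rw [norm_inv, norm_inv] at h4
      rw [dist_eq_norm] at h1 h2
      have h5 : ‖z - p‖⁻¹ ≤ ρ⁻¹ := inv_anti₀ hρ h1
      have h6 : ‖z - q‖⁻¹ ≤ ρ⁻¹ := inv_anti₀ hρ h2
      have h7 := mul_le_of_le_one_left (norm_nonneg (b6Cst_L ((z - p)⁻¹ - (z - q)⁻¹)))
        (Real.abs_cos_le_one ((ℓ z).im / M))
      linarith
    · exact (hint M).congr_fun (fun z hz => (heq z hz).symm) hKo.measurableSet
  have hten : Tendsto (fun n : ℕ => ∫ z in Kᶜ, Real.cos ((ℓ z).im / ((n : ℝ) + 1)) * g z) atTop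
      (𝓝 (∫ z in Kᶜ, g z)) := by
    refine tendsto_integral_of_dominated_convergence (fun z => ‖g z‖)
      (fun n => (hint _).aestronglyMeasurable) hI.norm (fun n => Eventually.of_forall fun z => ?_)
      (Eventually.of_forall fun z => ?_)
    · rw [norm_mul, Real.norm_eq_abs]
      exact mul_le_of_le_one_left (norm_nonneg _) (Real.abs_cos_le_one _)
    · have h1 : Tendsto (fun n : ℕ => (ℓ z).im / ((n : ℝ) + 1)) atTop (𝓝 0) :=
        tendsto_const_nhds.div_atTop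
          (tendsto_natCast_atTop_atTop.atTop_add tendsto_const_nhds)
      have h2 := ((Real.continuous_cos.tendsto 0).comp h1).mul_const (g z)
      rw [Real.cos_zero, one_mul] at h2
      exact h2
  have h0 : ∫ z in Kᶜ, g z = 0 := by
    refine tendsto_nhds_unique hten ?_
    have : (fun n : ℕ => ∫ z in Kᶜ, Real.cos ((ℓ z).im / ((n : ℝ) + 1)) * g z) = fun _ => 0 :=
      funext fun n => hzero _ (Nat.cast_add_one_pos n)
    rw [this]
    exact tendsto_const_nhds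
  have h1 := cj_sub h p q
  rw [h0, mul_zero] at h1
  exact sub_eq_zero.1 h1

end Vale.Agent.P128
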