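import Vale.Agent.P128.TA2.Main

/-! P128 B6/Near (TASK): two computations in polar coordinates.

Plan. Up to the null set `{p}`, `ball p ρ = {z | dist z p ∈ Ioo 0 ρ}`; use `polar_int` with
`I = Ioo 0 ρ`; note `‖circleMap p s θ - p‖ = s` for `s > 0`.
`tangential_zero`: the inner integral is `s * a s` times the integral over `Ioc (-π) π` of the
derivative of `θ ↦ u (circleMap p s θ)`, namely `fderiv ℝ u (circleMap p s θ) (circleMap 0 s θ * I)`
(`hasDerivAt_circleMap`, `circleMap_sub_center`), which vanishes by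
`intervalIntegral.integral_eq_sub_of_hasDerivAt` and `periodic_circleMap`.
`radial_mean`: the inner integral is `s * b s * (∫ θ, f (circleMap p s θ) * e).re = s * b s * 2π * (f p * e).re`
by the mean value property (`DiffContOnCl.circleAverage`/`circleAverage_of_differentiable_on`,
`Real.circleAverage`, `Function.Periodic.intervalIntegral_add_eq` to move the period, or the
harmonic version `HarmonicOnNhd.circleAverage_eq`). Integrability: `b` and `f` are continuous on
the compact ball. -/

namespace Vale.Agent.P128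

open MeasureTheory Set Metric Filter Topology
open scoped ENNReal NNReal

theorem b6Near_polar {F : ℂ → ℝ} {p : ℂ} {ρ : ℝ} (hF : IntegrableOn F (ball p ρ)) :
    ∫ z in ball p ρ, F z =
      ∫ s in Ioo 0 ρ, ∫ θ in (-Real.pi)..Real.pi, s * F (circleMap p s θ) := by
  have hsub : {z : ℂ | dist z p ∈ Ioo 0 ρ} ⊆ ball p ρ := fun z hz => hz.2
  have hae : ball p ρ =ᵐ[volume] {z : ℂ | dist z p ∈ Ioo 0 ρ} := by
    have : ∀ᵐ z ∂(volume : Measure ℂ), z ≠ p := by
      rw [ae_iff]
      simp
    filter_upwards [this] with z hz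
    exact propext ⟨fun h => ⟨dist_pos.2 hz, h⟩, fun h => h.2⟩
  rw [setIntegral_congr_set hae,
    (polar_int p measurableSet_Ioo Ioo_subset_Ioi_self (hF.mono_set hsub)).2.2]
  simp only [intervalIntegral.integral_of_le (neg_le_self Real.pi_pos.le)]

theorem b6Near_norm (p : ℂ) {s : ℝ} (hs : 0 < s) (θ : ℝ) : ‖circleMap p s θ - p‖ = s := by
  rw [circleMap_sub_center, norm_circleMap_zero, abs_of_pos hs]

theorem b6Near_mem (p : ℂ) {s ρ : ℝ} (hs : 0 < s) (h : s < ρ) (θ : ℝ) :
    circleMap p s θ ∈ ball p ρ := by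
  rw [mem_ball, dist_eq_norm, b6Near_norm p hs]
  exact h

theorem b6Near_mean {f : ℂ → ℂ} {p : ℂ} {s R : ℝ} (hs : 0 < s) (hR : s < R)
    (hf : DifferentiableOn ℂ f (ball p R)) :
    ∫ θ in (-Real.pi)..Real.pi, f (circleMap p s θ) = (2 * Real.pi : ℝ) • f p := by
  have hd : DiffContOnCl ℂ f (ball p |s|) := by
    rw [abs_of_pos hs]
    refine (hf.mono ?_).diffContOnCl
    rw [closure_ball p hs.ne']
    exact closedBall_subset_ball hR
  have h := hd.circleAverage
  rw [Real.circleAverage_eq_integral_add (-Real.pi),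
    intervalIntegral.integral_comp_add_right (fun θ => f (circleMap p s θ)),
    zero_add, show 2 * Real.pi + -Real.pi = Real.pi by ring] at h
  rw [← h, smul_smul, mul_inv_cancel₀ Real.two_pi_pos.ne', one_smul]

theorem tangential_zero {u : ℂ → ℝ} {p : ℂ} {ρ : ℝ} (hρ : 0 < ρ)
    (hd : ∀ z ∈ ball p ρ, DifferentiableAt ℝ u z) (hc : ContinuousOn (fderiv ℝ u) (ball p ρ))
    {a : ℝ → ℝ}
    (hI : IntegrableOn (fun z => a ‖z - p‖ * fderiv ℝ u z (Complex.I * (z - p))) (ball p ρ)) :
    ∫ z in ball p ρ, a ‖z - p‖ * fderiv ℝ u z (Complex.I * (z - p)) = 0 := by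
  rw [b6Near_polar hI]
  refine setIntegral_eq_zero_of_forall_eq_zero fun s hs => ?_
  have hm := b6Near_mem p hs.1 hs.2
  simp only [b6Near_norm p hs.1, ← mul_assoc]
  rw [intervalIntegral.integral_const_mul]
  have hder : ∀ θ : ℝ, HasDerivAt (fun θ => u (circleMap p s θ))
      (fderiv ℝ u (circleMap p s θ) (Complex.I * (circleMap p s θ - p))) θ := fun θ => by
    have := (hd _ (hm θ)).hasFDerivAt.comp_hasDerivAt θ (hasDerivAt_circleMap p s θ)
    rw [circleMap_sub_center, mul_comm]
    exact this
  have hcont : Continuous fun θ : ℝ =>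
      fderiv ℝ u (circleMap p s θ) (Complex.I * (circleMap p s θ - p)) :=
    (hc.comp_continuous (continuous_circleMap p s) hm).clm_apply
      (continuous_const.mul ((continuous_circleMap p s).sub continuous_const))
  rw [intervalIntegral.integral_eq_sub_of_hasDerivAt (fun θ _ => hder θ)
    (hcont.intervalIntegrable _ _)]
  have := periodic_circleMap p s (-Real.pi)
  rw [show -Real.pi + 2 * Real.pi = Real.pi by ring] at this
  rw [this, sub_self, mul_zero]

theorem radial_mean {f : ℂ → ℂ} {p : ℂ} {ρ R : ℝ} (hρ : 0 < ρ) (hR : ρ < R)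
    (hf : DifferentiableOn ℂ f (ball p R)) {b : ℝ → ℝ} (hb : Continuous b) (e : ℂ) :
    IntegrableOn (fun z => b ‖z - p‖ * (f z * e).re) (ball p ρ) ∧
    ∫ z in ball p ρ, b ‖z - p‖ * (f z * e).re =
      2 * Real.pi * (∫ s in (0 : ℝ)..ρ, s * b s) * (f p * e).re := by
  have hcf : ContinuousOn (fun z => b ‖z - p‖ * (f z * e).re) (closedBall p ρ) :=
    (hb.comp (continuous_id.sub continuous_const).norm).continuousOn.mul
      (Complex.continuous_re.comp_continuousOn
        ((hf.continuousOn.mono (closedBall_subset_ball hR)).mul continuousOn_const))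
  have hI : IntegrableOn (fun z => b ‖z - p‖ * (f z * e).re) (ball p ρ) :=
    (hcf.integrableOn_compact (isCompact_closedBall p ρ)).mono_set ball_subset_closedBall
  refine ⟨hI, ?_⟩
  rw [b6Near_polar hI, intervalIntegral.integral_of_le hρ.le, integral_Ioc_eq_integral_Ioo,
    mul_assoc, ← integral_mul_const, ← integral_const_mul]
  refine setIntegral_congr_fun measurableSet_Ioo fun s hs => ?_
  have hsR := hs.2.trans hR
  have hc : Continuous fun θ : ℝ => f (circleMap p s θ) * e :=
    (hf.continuousOn.comp_continuous (continuous_circleMap p s)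
      (b6Near_mem p hs.1 hsR)).mul continuous_const
  have h1 := Complex.reCLM.intervalIntegral_comp_comm
    (hc.intervalIntegrable (μ := volume) (-Real.pi) Real.pi)
  rw [intervalIntegral.integral_mul_const, b6Near_mean hs.1 hsR hf, smul_mul_assoc, map_smul] at h1
  simp only [Complex.reCLM_apply, smul_eq_mul] at h1
  simp only [b6Near_norm p hs.1, ← mul_assoc]
  rw [intervalIntegral.integral_const_mul, h1]
  ring

end Vale.Agent.P128
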