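import Vale.Agent.P128.Defs

/-! P128 B6/Eta (TASK): cutoff functions near two points and near infinity.

Plan. Let `β : ContDiffBump (0 : ℂ) := ⟨1, 2, _, _⟩`; `β = 1` on `closedBall 0 1`, `β = 0` off
`ball 0 2`, `0 ≤ β ≤ 1`. Its derivative is continuous with compact support, so bounded by some
`L`; it vanishes on `ball 0 1` and off `closedBall 0 2` (locally constant there), hence also off
`ball 0 2` by continuity (or replace the radii: it is enough that it vanishes off `ball 0 3`).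
With `N = n + 1` put `η n z = (1 - β (N • (z - p))) * (1 - β (N • (z - q))) * β (N⁻¹ • z)`.
Product rule and chain rule: each factor has absolute value at most one and the derivatives of
the factors are bounded by `N L`, `N L`, `L / N` and vanish off the stated sets. -/

namespace Vale.Agent.P128

open MeasureTheory Set Metric Filter Topology
open scoped ENNReal NNReal

theorem b6Eta_beta : ∃ (β : ℂ → ℝ) (L : ℝ), 0 ≤ L ∧ ContDiff ℝ 1 β ∧ (∀ z, 0 ≤ β z ∧ β z ≤ 1) ∧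
    (∀ z, ‖z‖ ≤ 1 → β z = 1) ∧ (∀ z, 2 ≤ ‖z‖ → β z = 0) ∧ (∀ z, ‖fderiv ℝ β z‖ ≤ L) ∧
    ∀ z, (‖z‖ < 1 ∨ 2 < ‖z‖) → fderiv ℝ β z = 0 := by
  let β : ContDiffBump (0 : ℂ) := ⟨1, 2, one_pos, one_lt_two⟩
  have hc : ContDiff ℝ 1 β := β.contDiff
  have h1 : ∀ z, ‖z‖ ≤ 1 → β z = 1 := fun z hz =>
    β.one_of_mem_closedBall (mem_closedBall_zero_iff.2 hz)
  have h2 : ∀ z, 2 ≤ ‖z‖ → β z = 0 := fun z hz => β.zero_of_le_dist (by simpa using hz)
  obtain ⟨L, hL⟩ := (hc.continuous_fderiv one_ne_zero).bounded_above_of_compact_support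
    (β.hasCompactSupport.fderiv ℝ)
  refine ⟨β, L, (norm_nonneg _).trans (hL 0), hc, fun z => ⟨β.nonneg, β.le_one⟩, h1, h2, hL, ?_⟩
  rintro z (hz | hz)
  · have e : (β : ℂ → ℝ) =ᶠ[𝓝 z] fun _ => 1 := by
      filter_upwards [(isOpen_lt continuous_norm continuous_const).mem_nhds hz] with w hw
      exact h1 w (le_of_lt hw)
    rw [e.fderiv_eq, fderiv_fun_const, Pi.zero_apply]
  · have e : (β : ℂ → ℝ) =ᶠ[𝓝 z] fun _ => 0 := by
      filter_upwards [(isOpen_lt continuous_const continuous_norm).mem_nhds hz] with w hw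
      exact h2 w (le_of_lt hw)
    rw [e.fderiv_eq, fderiv_fun_const, Pi.zero_apply]

theorem b6Eta_aff {β : ℂ → ℝ} (hβ : ContDiff ℝ 1 β) {c : ℝ} (hc : 0 < c) (p z : ℂ) :
    ‖fderiv ℝ (fun w => β (c • (w - p))) z‖ ≤ ‖fderiv ℝ β (c • (z - p))‖ * c := by
  have h1 : HasFDerivAt (fun w : ℂ => c • (w - p)) (c • ContinuousLinearMap.id ℝ ℂ) z :=
    ((hasFDerivAt_id z).sub_const p).const_smul c
  have h2 := ((hβ.differentiable one_ne_zero) (c • (z - p))).hasFDerivAt.comp z h1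
  rw [show (fun w => β (c • (w - p))) = β ∘ fun w => c • (w - p) from rfl, h2.fderiv]
  refine (ContinuousLinearMap.opNorm_comp_le _ _).trans (mul_le_mul_of_nonneg_left ?_ (norm_nonneg _))
  rw [norm_smul, Real.norm_eq_abs, abs_of_pos hc]
  exact mul_le_of_le_one_right hc.le ContinuousLinearMap.norm_id_le

theorem b6Eta_mul {f g : ℂ → ℝ} {z : ℂ} (hf : DifferentiableAt ℝ f z) (hg : DifferentiableAt ℝ g z)
    (h1 : |f z| ≤ 1) (h2 : |g z| ≤ 1) :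
    ‖fderiv ℝ (fun w => f w * g w) z‖ ≤ ‖fderiv ℝ f z‖ + ‖fderiv ℝ g z‖ := by
  rw [fderiv_fun_mul hf hg, add_comm]
  refine (norm_add_le _ _).trans (add_le_add ?_ ?_)
  · rw [norm_smul]
    exact mul_le_of_le_one_left (norm_nonneg _) h2
  · rw [norm_smul]
    exact mul_le_of_le_one_left (norm_nonneg _) h1

theorem b6Eta_near {β : ℂ → ℝ} {L : ℝ} (hβ : ContDiff ℝ 1 β) (hL : ∀ z, ‖fderiv ℝ β z‖ ≤ L)
    (h0 : ∀ z, (‖z‖ < 1 ∨ 2 < ‖z‖) → fderiv ℝ β z = 0) {c : ℝ} (hc : 0 < c) (p z : ℂ) :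
    ‖fderiv ℝ (fun w => 1 - β (c • (w - p))) z‖ ≤ (ball p (3 / c)).indicator (fun _ => L * c) z := by
  rw [fderiv_const_sub, norm_neg]
  refine (b6Eta_aff hβ hc p z).trans ?_
  by_cases hz : z ∈ ball p (3 / c)
  · rw [indicator_of_mem hz]
    exact mul_le_mul_of_nonneg_right (hL _) hc.le
  · rw [indicator_of_notMem hz, h0 _ (Or.inr ?_), norm_zero, zero_mul]
    rw [mem_ball, not_lt, div_le_iff₀ hc, dist_eq_norm] at hz
    rw [norm_smul, Real.norm_eq_abs, abs_of_pos hc]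
    linarith

theorem b6Eta_far {β : ℂ → ℝ} {L : ℝ} (hβ : ContDiff ℝ 1 β) (hL : ∀ z, ‖fderiv ℝ β z‖ ≤ L)
    (h0 : ∀ z, (‖z‖ < 1 ∨ 2 < ‖z‖) → fderiv ℝ β z = 0) {c : ℝ} (hc : 0 < c) (z : ℂ) :
    ‖fderiv ℝ (fun w => β (c⁻¹ • (w - 0))) z‖ ≤
      (ball (0 : ℂ) (3 * c) \ ball 0 c).indicator (fun _ => L / c) z := by
  refine (b6Eta_aff hβ (inv_pos.2 hc) 0 z).trans ?_
  by_cases hz : z ∈ ball (0 : ℂ) (3 * c) \ ball 0 c
  · rw [indicator_of_mem hz, div_eq_mul_inv]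
    exact mul_le_mul_of_nonneg_right (hL _) (inv_pos.2 hc).le
  · rw [indicator_of_notMem hz, h0, norm_zero, zero_mul]
    rw [norm_smul, Real.norm_eq_abs, abs_of_pos (inv_pos.2 hc), sub_zero, inv_mul_lt_iff₀ hc,
      lt_inv_mul_iff₀ hc]
    by_cases h1 : ‖z‖ < c
    · exact Or.inl (by linarith)
    · refine Or.inr ?_
      by_contra h2
      exact hz ⟨mem_ball_zero_iff.2 (by linarith), fun h3 => h1 (mem_ball_zero_iff.1 h3)⟩

theorem exists_eta (p q : ℂ) : ∃ (L : ℝ) (η : ℕ → ℂ → ℝ), 0 ≤ L ∧ (∀ n, ContDiff ℝ 1 (η n)) ∧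
    (∀ n z, |η n z| ≤ 1) ∧
    (∀ (n : ℕ) z, (dist z p < 1 / (n + 1) ∨ dist z q < 1 / (n + 1) ∨ 2 * ((n : ℝ) + 1) < ‖z‖) →
      η n z = 0) ∧
    (∀ z, z ≠ p → z ≠ q → ∀ᶠ n in atTop, η n z = 1) ∧
    ∀ (n : ℕ) z, ‖fderiv ℝ (η n) z‖ ≤
      (ball p (3 / (n + 1))).indicator (fun _ => L * (n + 1)) z +
      (ball q (3 / (n + 1))).indicator (fun _ => L * (n + 1)) z +
      (ball (0 : ℂ) (3 * (n + 1)) \ ball 0 (n + 1)).indicator (fun _ => L / (n + 1)) z := by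
  obtain ⟨β, L, hL0, hβ, h01, h1, h2, hL, h0⟩ := b6Eta_beta
  have hN : ∀ n : ℕ, (0 : ℝ) < n + 1 := fun n => by positivity
  have ha : ∀ z, |β z| ≤ 1 := fun z => abs_le.2 ⟨by linarith [(h01 z).1], (h01 z).2⟩
  have hb : ∀ z, |1 - β z| ≤ 1 := fun z =>
    abs_le.2 ⟨by linarith [(h01 z).2], by linarith [(h01 z).1]⟩
  have hs : ∀ (c : ℝ) (x : ℂ), ContDiff ℝ 1 fun w : ℂ => β (c • (w - x)) := fun c x =>
    hβ.comp ((contDiff_id.sub contDiff_const).const_smul c)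
  have hs' : ∀ (c : ℝ) (x : ℂ), ContDiff ℝ 1 fun w : ℂ => 1 - β (c • (w - x)) := fun c x =>
    contDiff_const.sub (hs c x)
  have hab : ∀ a b : ℝ, |a| ≤ 1 → |b| ≤ 1 → |a * b| ≤ 1 := fun a b h h' => by
    rw [abs_mul]
    exact mul_le_one₀ h (abs_nonneg _) h'
  have hn : ∀ (n : ℕ) (z x : ℂ), ‖((n : ℝ) + 1) • (z - x)‖ = ((n : ℝ) + 1) * dist z x := by
    intro n z x
    rw [norm_smul, Real.norm_eq_abs, abs_of_pos (hN n), dist_eq_norm]
  have hf : ∀ (n : ℕ) (z : ℂ), ‖((n : ℝ) + 1)⁻¹ • (z - 0)‖ = ((n : ℝ) + 1)⁻¹ * ‖z‖ := by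
    intro n z
    rw [norm_smul, Real.norm_eq_abs, abs_of_pos (inv_pos.2 (hN n)), sub_zero]
  refine ⟨L, fun n z => (1 - β (((n : ℝ) + 1) • (z - p))) * (1 - β (((n : ℝ) + 1) • (z - q))) *
    β (((n : ℝ) + 1)⁻¹ • (z - 0)), hL0, fun n => ((hs' _ p).mul (hs' _ q)).mul (hs _ 0),
    fun n z => hab _ _ (hab _ _ (hb _) (hb _)) (ha _), ?_, ?_, ?_⟩
  · rintro n z (hz | hz | hz)
    · rw [lt_div_iff₀ (hN n)] at hz
      simp only [h1 _ (show ‖((n : ℝ) + 1) • (z - p)‖ ≤ 1 by rw [hn]; linarith), sub_self, zero_mul]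
    · rw [lt_div_iff₀ (hN n)] at hz
      simp only [h1 _ (show ‖((n : ℝ) + 1) • (z - q)‖ ≤ 1 by rw [hn]; linarith), sub_self, zero_mul,
        mul_zero]
    · have h3 : 2 ≤ ‖((n : ℝ) + 1)⁻¹ • (z - 0)‖ := by
        rw [hf, le_inv_mul_iff₀ (hN n)]
        linarith
      simp only [h2 _ h3, mul_zero]
  · intro z hp hq
    have ht : Tendsto (fun n : ℕ => (n : ℝ) + 1) atTop atTop :=
      tendsto_atTop_add_const_right _ _ tendsto_natCast_atTop_atTop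
    filter_upwards [ht.eventually_ge_atTop (2 / dist z p), ht.eventually_ge_atTop (2 / dist z q),
      ht.eventually_ge_atTop ‖z‖] with n n1 n2 n3
    rw [div_le_iff₀ (dist_pos.2 hp)] at n1
    rw [div_le_iff₀ (dist_pos.2 hq)] at n2
    have h3 : ‖((n : ℝ) + 1)⁻¹ • (z - 0)‖ ≤ 1 := by
      rw [hf, inv_mul_le_iff₀ (hN n)]
      linarith
    rw [h2 _ (show 2 ≤ ‖((n : ℝ) + 1) • (z - p)‖ by rw [hn]; exact n1),
      h2 _ (show 2 ≤ ‖((n : ℝ) + 1) • (z - q)‖ by rw [hn]; exact n2), h1 _ h3]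
    norm_num
  · intro n z
    have d1 := (hs' ((n : ℝ) + 1) p).differentiable one_ne_zero z
    have d2 := (hs' ((n : ℝ) + 1) q).differentiable one_ne_zero z
    have d3 := (hs ((n : ℝ) + 1)⁻¹ 0).differentiable one_ne_zero z
    exact (b6Eta_mul (d1.mul d2) d3 (hab _ _ (hb _) (hb _)) (ha _)).trans (add_le_add
      ((b6Eta_mul d1 d2 (hb _) (hb _)).trans (add_le_add (b6Eta_near hβ hL h0 (hN n) p z)
        (b6Eta_near hβ hL h0 (hN n) q z))) (b6Eta_far hβ hL h0 (hN n) z))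

end Vale.Agent.P128
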