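import Vale.Agent.P128.B6.Ker
import Vale.Agent.P128.B6.Eta

/-! P128 B6/Tail (TASK): the outer variation for test functions that decay at infinity and are
singular at two points.

Plan. Take `L, η` from `exists_eta p q`, `ψ n = η n * ψ`, `N = n + 1`. `GM.outer0` applies with
`C = closedBall 0 (2 N)`: local Lipschitz property from `ContDiffAt.exists_lipschitzOnWith` off
`p, q` and because `ψ n = 0` near `p, q`; the derivative is bounded (zero where `η n` vanishes
in a neighbourhood, otherwise `hD (1/N)` and the product rule) and vanishes off `C`, so the energy is finite.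
For `z ∉ K`, `z ≠ p, q` (almost every point of `Kᶜ`):
`fderiv (ψ n) z (gr u z) = η n z * fderiv ψ z (gr u z) + ψ z * fderiv (η n) z (gr u z)`.
The integral of the first term tends to the integral in the goal
(`tendsto_integral_of_dominated_convergence`). The second term has absolute value at most
`|ψ z| ‖fderiv (η n) z‖ ‖fderiv u z‖` (`norm_dz`), whose integral over `Kᶜ` is at most
`2 * M L N * 15 (3/N) √(3/N) + (M/N) (L/N) * 15 (3N) √(3N) → 0` for `N ≥ R₀` by `GM.l1`. -/

namespace Vale.Agent.P128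

open MeasureTheory Set Metric Filter Topology
open scoped ENNReal NNReal

theorem b6Tail_meas (w u : ℂ → ℝ) : Measurable fun z => fderiv ℝ w z (gr u z) := by
  have e : (fun z => fderiv ℝ w z (gr u z)) = fun z =>
      fderiv ℝ u z 1 * fderiv ℝ w z 1 + fderiv ℝ u z Complex.I * fderiv ℝ w z Complex.I := by
    funext z
    rw [gr, map_add, ← smul_eq_mul (fderiv ℝ u z 1), ← smul_eq_mul (fderiv ℝ u z Complex.I),
      ← map_smul, ← map_smul]
    simp [mul_comm]
  rw [e]
  exact ((measurable_fderiv_apply_const ℝ u 1).mul (measurable_fderiv_apply_const ℝ w 1)).add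
    ((measurable_fderiv_apply_const ℝ u _).mul (measurable_fderiv_apply_const ℝ w _))

theorem b6Tail_mi (u : ℂ → ℝ) (y : ℂ) (r A : ℝ) : Measurable fun z =>
    ENNReal.ofReal ((ball y r).indicator (fun _ => A) z * ‖fderiv ℝ u z‖) :=
  ((measurable_const.indicator measurableSet_ball).mul (measurable_fderiv ℝ u).norm).ennreal_ofReal

theorem b6Tail_ball {c : ℝ} {u : ℂ → ℝ} {K : Set ℂ} (h : GM c u K) (y : ℂ) {r A : ℝ} (hr : 0 < r)
    (hA : 0 ≤ A) : (∫⁻ z in Kᶜ, ENNReal.ofReal ((ball y r).indicator (fun _ => A) z *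
      ‖fderiv ℝ u z‖)) ≤ ENNReal.ofReal (A * (15 * r * √r)) := by
  have e : (fun z => ENNReal.ofReal ((ball y r).indicator (fun _ => A) z * ‖fderiv ℝ u z‖)) =
      (ball y r).indicator fun z => ENNReal.ofReal A * ‖fderiv ℝ u z‖ₑ := by
    funext z
    by_cases hz : z ∈ ball y r
    · rw [indicator_of_mem hz, indicator_of_mem hz, ENNReal.ofReal_mul hA, ofReal_norm]
    · simp [indicator_of_notMem hz]
  rw [e, lintegral_indicator measurableSet_ball, Measure.restrict_restrict measurableSet_ball,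
    lintegral_const_mul' _ _ ENNReal.ofReal_ne_top, ENNReal.ofReal_mul hA, ← sdiff_eq]
  exact mul_le_mul_right (h.l1 y hr) _

theorem b6Tail_zero {c : ℝ} {u : ℂ → ℝ} {K : Set ℂ} (h : GM c u K) {ψ η : ℂ → ℝ} {p q : ℂ}
    {M ρ R A B : ℝ} (hρ : 0 < ρ) (hd : ∀ z ∉ K, z ≠ p → z ≠ q → ContDiffAt ℝ 1 ψ z)
    (hb : ∀ z, |ψ z| ≤ M) (hA : ∀ z ∉ K, ρ ≤ dist z p → ρ ≤ dist z q → ‖fderiv ℝ ψ z‖ ≤ A)
    (hη : ContDiff ℝ 1 η) (h1 : ∀ z, |η z| ≤ 1) (hB : ∀ z, ‖fderiv ℝ η z‖ ≤ B)
    (h0 : ∀ z, (dist z p < ρ ∨ dist z q < ρ ∨ R < ‖z‖) → η z = 0) :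
    ∫ z in Kᶜ, fderiv ℝ (fun z => η z * ψ z) z (gr u z) = 0 := by
  have hU : IsOpen {z : ℂ | dist z p < ρ ∨ dist z q < ρ ∨ R < ‖z‖} :=
    (isOpen_ball (x := p) (ε := ρ)).union ((isOpen_ball (x := q) (ε := ρ)).union
      (isOpen_lt (continuous_const (y := R)) (continuous_norm (E := ℂ))))
  have ev : ∀ z, (dist z p < ρ ∨ dist z q < ρ ∨ R < ‖z‖) →
      (fun z => η z * ψ z) =ᶠ[𝓝 z] fun _ => 0 := fun z hz =>
    Filter.mem_of_superset (hU.mem_nhds hz) fun w hw => by
      simp only [mem_ofPred_eq]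
      rw [h0 w hw, zero_mul]
  have ne : ∀ {z y : ℂ}, ρ ≤ dist z y → z ≠ y := fun hz e => by
    rw [e, dist_self] at hz
    exact absurd hρ (not_lt.2 hz)
  refine h.outer0 (isCompact_closedBall 0 R) (fun z hz => ?_)
    ((locLip_iff h.closed.isOpen_compl).2 fun z hz => ?_) ⟨M, fun z => ?_⟩ ?_
  · rw [h0 z (Or.inr (Or.inr (by simpa using hz))), zero_mul]
  · by_cases hz' : dist z p < ρ ∨ dist z q < ρ ∨ R < ‖z‖
    · exact (lipAt_const 0 z).congr (ev z hz')
    · simp only [not_or, not_lt] at hz'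
      exact (hη.contDiffAt.mul (hd z hz (ne hz'.1) (ne hz'.2.1))).exists_lipschitzOnWith
  · rw [abs_mul]
    exact (mul_le_of_le_one_left (abs_nonneg _) (h1 z)).trans (hb z)
  · have key : ∀ z ∈ Kᶜ, ‖fderiv ℝ (fun z => η z * ψ z) z‖ₑ ^ 2 ≤
        (closedBall (0 : ℂ) R).indicator (fun _ => ENNReal.ofReal (A + M * B) ^ 2) z := by
      intro z hz
      by_cases hz' : dist z p < ρ ∨ dist z q < ρ ∨ R < ‖z‖
      · rw [(ev z hz').fderiv_eq, ← ofReal_norm]
        simp
      · simp only [not_or, not_lt] at hz'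
        rw [indicator_of_mem (by simpa using hz'.2.2), ← ofReal_norm,
          fderiv_fun_mul (hη.differentiable one_ne_zero z)
            ((hd z hz (ne hz'.1) (ne hz'.2.1)).differentiableAt one_ne_zero)]
        refine pow_le_pow_left' (ENNReal.ofReal_le_ofReal ((norm_add_le _ _).trans ?_)) 2
        rw [norm_smul, norm_smul, Real.norm_eq_abs, Real.norm_eq_abs]
        exact add_le_add ((mul_le_of_le_one_left (norm_nonneg _) (h1 z)).trans
          (hA z hz hz'.1 hz'.2.1)) (mul_le_mul (hb z) (hB z) (norm_nonneg _)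
            ((abs_nonneg _).trans (hb z)))
    refine (setLIntegral_mono' h.closed.isOpen_compl.measurableSet key).trans_lt
      ((setLIntegral_le_lintegral _ _).trans_lt ?_)
    rw [lintegral_indicator measurableSet_closedBall, setLIntegral_const]
    exact ENNReal.mul_lt_top (ENNReal.pow_lt_top ENNReal.ofReal_lt_top) measure_closedBall_lt_top

theorem b6Tail_ind {S : Set ℂ} {A : ℝ} (hA : 0 ≤ A) (z : ℂ) :
    0 ≤ S.indicator (fun _ => A) z ∧ S.indicator (fun _ => A) z ≤ A := by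
  by_cases hz : z ∈ S <;> simp [hz, hA]

theorem b6Tail_pt {a d M L N : ℝ} {p q z : ℂ} (hM : 0 ≤ M) (hL : 0 ≤ L) (hN : 0 < N) (ha0 : 0 ≤ a)
    (ha : a ≤ M) (hdec : N ≤ ‖z‖ → a * ‖z‖ ≤ M)
    (hd : d ≤ (ball p (3 / N)).indicator (fun _ => L * N) z +
      (ball q (3 / N)).indicator (fun _ => L * N) z +
      (ball (0 : ℂ) (3 * N) \ ball 0 N).indicator (fun _ => L / N) z) :
    a * d ≤ (ball p (3 / N)).indicator (fun _ => M * (L * N)) z +
      (ball q (3 / N)).indicator (fun _ => M * (L * N)) z +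
      (ball (0 : ℂ) (3 * N)).indicator (fun _ => M / N * (L / N)) z := by
  have k : ∀ y : ℂ, a * (ball y (3 / N)).indicator (fun _ => L * N) z ≤
      (ball y (3 / N)).indicator (fun _ => M * (L * N)) z := fun y => by
    by_cases hz : z ∈ ball y (3 / N)
    · rw [indicator_of_mem hz, indicator_of_mem hz]
      exact mul_le_mul_of_nonneg_right ha (by positivity)
    · simp [indicator_of_notMem hz]
  refine (mul_le_mul_of_nonneg_left hd ha0).trans ?_
  rw [mul_add, mul_add]
  refine add_le_add (add_le_add (k p) (k q)) ?_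
  by_cases hz : z ∈ ball (0 : ℂ) (3 * N) \ ball 0 N
  · rw [indicator_of_mem hz, indicator_of_mem hz.1]
    have h1 : N ≤ ‖z‖ := by simpa using hz.2
    refine mul_le_mul_of_nonneg_right ?_ (by positivity)
    rw [le_div_iff₀ hN]
    exact (mul_le_mul_of_nonneg_left h1 ha0).trans (hdec h1)
  · rw [indicator_of_notMem hz, mul_zero]
    exact (b6Tail_ind (by positivity) z).1

theorem GM.outer_tail {c : ℝ} {u : ℂ → ℝ} {K : Set ℂ} (h : GM c u K) {ψ : ℂ → ℝ} {p q : ℂ}
    {M R₀ : ℝ} (hd : ∀ z ∉ K, z ≠ p → z ≠ q → ContDiffAt ℝ 1 ψ z) (hb : ∀ z, |ψ z| ≤ M)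
    (hdec : ∀ z, R₀ ≤ ‖z‖ → |ψ z| * ‖z‖ ≤ M)
    (hD : ∀ ρ : ℝ, 0 < ρ → ∃ A : ℝ, ∀ z ∉ K, ρ ≤ dist z p → ρ ≤ dist z q → ‖fderiv ℝ ψ z‖ ≤ A)
    (hI : IntegrableOn (fun z => fderiv ℝ ψ z (gr u z)) Kᶜ) :
    ∫ z in Kᶜ, fderiv ℝ ψ z (gr u z) = 0 := by
  obtain ⟨L, η, hL, hs, h1, h0, hone, hder⟩ := exists_eta p q
  have hM : 0 ≤ M := (abs_nonneg _).trans (hb 0)
  have hK := h.closed.isOpen_compl.measurableSet
  have ae : ∀ᵐ z ∂(volume.restrict Kᶜ), z ∉ K ∧ z ≠ p ∧ z ≠ q :=
    (ae_restrict_mem hK).and (ae_restrict_of_ae ((volume.ae_ne p).and (volume.ae_ne q)))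
  have ma : ∀ n, AEStronglyMeasurable (fun z => η n z * fderiv ℝ ψ z (gr u z))
      (volume.restrict Kᶜ) := fun n => (hs n).continuous.aestronglyMeasurable.mul hI.1
  have bd : ∀ n, ∀ᵐ z ∂(volume.restrict Kᶜ), ‖η n z * fderiv ℝ ψ z (gr u z)‖ ≤
      ‖fderiv ℝ ψ z (gr u z)‖ := fun n => Eventually.of_forall fun z => by
    rw [norm_mul]
    exact mul_le_of_le_one_left (norm_nonneg _) (h1 n z)
  have t1 := tendsto_integral_of_dominated_convergence (μ := volume.restrict Kᶜ)
    (F := fun n z => η n z * fderiv ℝ ψ z (gr u z)) (f := fun z => fderiv ℝ ψ z (gr u z)) _ ma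
    hI.norm bd (ae.mono fun z hz => tendsto_const_nhds.congr'
      ((hone z hz.2.1 hz.2.2).mono fun n hn => by simp [hn]))
  refine tendsto_nhds_unique t1 ?_
  have tN : Tendsto (fun n : ℕ => (n : ℝ) + 1) atTop atTop :=
    tendsto_atTop_add_const_right _ 1 tendsto_natCast_atTop_atTop
  have t2 : Tendsto (fun n : ℕ => 135 * M * L * √(3 / ((n : ℝ) + 1))) atTop (𝓝 0) := by
    simpa using (((tendsto_const_nhds (x := (3 : ℝ))).div_atTop tN).sqrt).const_mul (135 * M * L)
  refine squeeze_zero_norm' ((tN.eventually_ge_atTop R₀).mono fun n hn => ?_) t2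
  set N : ℝ := n + 1 with hN
  have N0 : 0 < N := by positivity
  obtain ⟨A, hA⟩ := hD (1 / N) (by positivity)
  have z0 := b6Tail_zero h (B := L * N + L * N + L / N) (by positivity) hd hb hA (hs n) (h1 n)
    (fun z => (hder n z).trans (add_le_add (add_le_add (b6Tail_ind (by positivity) z).2
      (b6Tail_ind (by positivity) z).2) (b6Tail_ind (by positivity) z).2)) (h0 n)
  set b : ℂ → ℝ := fun z => η n z * fderiv ℝ ψ z (gr u z) -
    fderiv ℝ (fun z => η n z * ψ z) z (gr u z) with hb'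
  have mb : AEStronglyMeasurable b (volume.restrict Kᶜ) :=
    (ma n).sub (b6Tail_meas _ u).aestronglyMeasurable
  have lb : (∫⁻ z in Kᶜ, ENNReal.ofReal ‖b z‖) ≤ ENNReal.ofReal (135 * M * L * √(3 / N)) := by
    have pt : ∀ᵐ z ∂(volume.restrict Kᶜ), ENNReal.ofReal ‖b z‖ ≤
        ENNReal.ofReal ((ball p (3 / N)).indicator (fun _ => M * (L * N)) z * ‖fderiv ℝ u z‖) +
        ENNReal.ofReal ((ball q (3 / N)).indicator (fun _ => M * (L * N)) z * ‖fderiv ℝ u z‖) +
        ENNReal.ofReal ((ball (0 : ℂ) (3 * N)).indicator (fun _ => M / N * (L / N)) z *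
          ‖fderiv ℝ u z‖) := by
      refine ae.mono fun z hz => ?_
      refine le_trans (ENNReal.ofReal_le_ofReal ?_)
        (ENNReal.ofReal_add_le.trans (add_le_add_left ENNReal.ofReal_add_le _))
      have e : b z = -(ψ z * fderiv ℝ (η n) z (gr u z)) := by
        simp only [hb']
        rw [fderiv_fun_mul ((hs n).differentiable one_ne_zero z)
          ((hd z hz.1 hz.2.1 hz.2.2).differentiableAt one_ne_zero)]
        simp
      rw [e, norm_neg, norm_mul, ← add_mul, ← add_mul, Real.norm_eq_abs]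
      refine (mul_le_mul_of_nonneg_left ((fderiv ℝ (η n) z).le_opNorm _) (abs_nonneg _)).trans ?_
      rw [(norm_dz u z).2.1, ← mul_assoc]
      exact mul_le_mul_of_nonneg_right (b6Tail_pt hM hL N0 (abs_nonneg _) (hb z)
        (fun hz' => hdec z (hn.trans hz')) (hder n z)) (norm_nonneg _)
    refine (lintegral_mono_ae pt).trans ?_
    rw [lintegral_add_right _ (b6Tail_mi u _ _ _), lintegral_add_right _ (b6Tail_mi u _ _ _)]
    refine (add_le_add (add_le_add (b6Tail_ball h p (by positivity) (by positivity))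
      (b6Tail_ball h q (by positivity) (by positivity)))
      (b6Tail_ball h 0 (by positivity) (by positivity))).trans (le_of_eq ?_)
    rw [← ENNReal.ofReal_add (by positivity) (by positivity),
      ← ENNReal.ofReal_add (by positivity) (by positivity)]
    have e : √(3 * N) = N * √(3 / N) := by
      rw [show 3 * N = N ^ 2 * (3 / N) by field_simp, Real.sqrt_mul (by positivity),
        Real.sqrt_sq N0.le]
    rw [e]
    congr 1
    field_simp
    ring
  have ib : Integrable b (volume.restrict Kᶜ) := by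
    refine ⟨mb, ?_⟩
    rw [hasFiniteIntegral_iff_norm]
    exact lb.trans_lt ENNReal.ofReal_lt_top
  have ia : Integrable (fun z => η n z * fderiv ℝ ψ z (gr u z)) (volume.restrict Kᶜ) :=
    hI.norm.mono' (ma n) (bd n)
  have e := integral_sub ia ib
  simp only [hb', sub_sub_cancel] at e
  rw [z0, eq_comm, sub_eq_zero] at e
  rw [e]
  exact (norm_integral_le_lintegral_norm _).trans (ENNReal.toReal_le_of_le_ofReal (by positivity) lb)

end Vale.Agent.P128
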