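import Vale.Agent.P128.B6.Smo
import Vale.Agent.P128.B6.Near
import Vale.Agent.P128.B6.Tail

/-! P128 B6/Der (TASK): the derivative of the conjugate function off `K`.

Fix `p₀ ∉ K`, `δ > 0` with `closedBall p₀ (4δ) ⊆ Kᶜ`, and `G a b M` from `exists_smooth_ker`.
* `near_zero`: the integrand `fderiv u z (ker (z-p) - G (z-p)) = a ‖z-p‖ * fderiv u z (I (z-p))`
  vanishes off `ball p (2δ) ⊆ Kᶜ` (`setIntegral_eq_of_subset_of_forall_diff_eq_zero`), is
  integrable by `GM.near`, and `tangential_zero` applies (`smooth_of_holo`).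
* `weight_int`: `GM.l1` on `ball p₀ R` and `GM.far` outside.
* `far_deriv`: `hasFDerivAt_integral_of_dominated_of_fderiv_le` on `ball p₀ δ` for
  `F p z = fderiv u z (G (z - p) - G (z - p₀))`, `F' p z = -(fderiv u z).comp (fderiv G (z - p))`; for
  `p ∈ ball p₀ δ`: `‖fderiv G (z - p)‖ ≤ M` and, if `‖z - p₀‖ ≥ 2δ`, `≤ 4 M ‖z - p₀‖⁻¹^2`.
  Then `(∫ F' p₀ z) e = -∫ fderiv u z (gr ψ z) - ∫ b ‖z - p₀‖ * fderiv u z (I e)` with
  `ψ z = (G (z - p₀) * conj e).re`; the first integral vanishes by `GM.outer_tail` (with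
  `p = q = p₀`; `fderiv u z (gr ψ z) = fderiv ψ z (gr u z)`), the second is
  `2π * fderiv u p₀ (I e)` by `radial_mean` and `fderiv_eq_dz`.
* `cj_deriv`: for `p ∈ ball p₀ δ`, `cj p - cj p₀ = (2π)⁻¹ * ∫ F p z` by `cj_sub`, `phi_int` and
  `near_zero` twice. -/

namespace Vale.Agent.P128

open MeasureTheory Set Metric Filter Topology
open scoped ENNReal NNReal

theorem gr_symm (u ψ : ℂ → ℝ) (z : ℂ) : fderiv ℝ u z (gr ψ z) = fderiv ℝ ψ z (gr u z) := by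
  rw [fderiv_eq_dz, fderiv_eq_dz]
  simp [dz, gr, mul_comm]

theorem b6Der_meas (u : ℂ → ℝ) {H : ℂ → ℂ} (hH : Measurable H) :
    Measurable fun z => fderiv ℝ u z (H z) := by
  simp only [fderiv_eq_dz]
  have h1 := measurable_fderiv_apply_const ℝ u (1 : ℂ)
  have h2 := measurable_fderiv_apply_const ℝ u Complex.I
  have : Measurable (dz u) := (Complex.measurable_ofReal.comp h1).sub
    (measurable_const.mul (Complex.measurable_ofReal.comp h2))
  exact Complex.measurable_re.comp (this.mul hH)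

theorem b6Der_int {u : ℂ → ℝ} {S : Set ℂ} {w : ℂ → ℝ} (hw : Measurable w) (h0 : ∀ z, 0 ≤ w z)
    {A : ℝ} (h : ∫⁻ z in S, ‖fderiv ℝ u z‖ₑ * ENNReal.ofReal (w z) ≤ ENNReal.ofReal A) :
    IntegrableOn (fun z => ‖fderiv ℝ u z‖ * w z) S := by
  refine ⟨((measurable_fderiv ℝ u).norm.mul hw).aestronglyMeasurable, ?_⟩
  refine lt_of_le_of_lt (le_of_eq (lintegral_congr fun z => ?_)) (h.trans_lt ENNReal.ofReal_lt_top)
  rw [enorm_mul, enorm_norm, Real.enorm_eq_ofReal (h0 z)]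

theorem b6Der_ext {f : ℂ → ℝ} {K S : Set ℂ} (hK : IsClosed K) (hB : Disjoint S K)
    (hf : IntegrableOn f S) (h0 : ∀ z ∉ S, f z = 0) :
    IntegrableOn f Kᶜ ∧ ∫ z in Kᶜ, f z = ∫ z in S, f z :=
  ⟨hf.of_forall_diff_eq_zero hK.measurableSet.compl fun z hz => h0 z hz.2,
    setIntegral_eq_of_subset_of_forall_diff_eq_zero hK.measurableSet.compl
      hB.subset_compl_right fun z hz => h0 z hz.2⟩

theorem b6Der_reg {c : ℝ} {u : ℂ → ℝ} {K S : Set ℂ} (h : GM c u K) (hB : Disjoint S K) :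
    (∀ z ∈ S, DifferentiableAt ℝ u z) ∧ DifferentiableOn ℂ (dz u) S :=
  ⟨fun z hz => h.diff z ⟨mem_univ z, hB.notMem_of_mem_left hz⟩,
    h.holo.mono fun z hz => ⟨mem_univ z, hB.notMem_of_mem_left hz⟩⟩


theorem near_zero {c : ℝ} {u : ℂ → ℝ} {K : Set ℂ} (h : GM c u K) {p : ℂ} {δ : ℝ} (hδ : 0 < δ)
    (hB : Disjoint (ball p (2 * δ)) K) {H : ℂ → ℂ} {a : ℝ → ℝ} (ha : Measurable a)
    (h1 : ∀ z, H z = a ‖z‖ • (Complex.I * z)) (h2 : ∀ s, 2 * δ ≤ s → a s = 0)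
    (h3 : ∀ z, ‖H z‖ ≤ ‖z‖⁻¹) :
    IntegrableOn (fun z => fderiv ℝ u z (H (z - p))) Kᶜ ∧
      ∫ z in Kᶜ, fderiv ℝ u z (H (z - p)) = 0 := by
  obtain ⟨r1, r2⟩ := b6Der_reg h hB
  have e : ∀ z, fderiv ℝ u z (H (z - p)) = a ‖z - p‖ * fderiv ℝ u z (Complex.I * (z - p)) :=
    fun z => by rw [h1, map_smul, smul_eq_mul]
  have hH : Measurable H := by
    rw [funext h1]
    exact (ha.comp measurable_norm).smul (measurable_const.mul measurable_id)
  have hn := h.near p (ρ := 2 * δ) (by linarith)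
  rw [hB.sdiff_eq_left] at hn
  have i1 := b6Der_int (w := fun z => ‖z - p‖⁻¹) (by fun_prop) (fun z => by positivity) hn
  have i2 : IntegrableOn (fun z => fderiv ℝ u z (H (z - p))) (ball p (2 * δ)) :=
    i1.mono' (b6Der_meas u (hH.comp (measurable_id.sub_const p))).aestronglyMeasurable
      (ae_of_all _ fun z => ((fderiv ℝ u z).le_opNorm _).trans
        (mul_le_mul_of_nonneg_left (h3 _) (norm_nonneg _)))
  obtain ⟨i3, i4⟩ := b6Der_ext h.closed hB i2 fun z hz => by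
    rw [e, h2 _ (by rwa [mem_ball, dist_eq_norm, not_lt] at hz), zero_mul]
  refine ⟨i3, i4.trans ?_⟩
  simp only [e] at i2 ⊢
  exact tangential_zero (by linarith) r1 (smooth_of_holo isOpen_ball r1 r2).2.2.1 i2

theorem weight_int {c : ℝ} {u : ℂ → ℝ} {K : Set ℂ} (h : GM c u K) (p : ℂ) {R : ℝ} (hR : 0 < R) :
    IntegrableOn (fun z => ‖fderiv ℝ u z‖ * (if ‖z - p‖ < R then 1 else ‖z - p‖⁻¹ ^ 2)) Kᶜ := by
  have i1 := b6Der_int (u := u) (S := ball p R \ K) (w := fun _ => 1) measurable_const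
    (fun _ => zero_le_one) (by simpa only [ENNReal.ofReal_one, mul_one] using h.l1 p hR)
  have i2 := b6Der_int (w := fun z => ‖z - p‖⁻¹ ^ 2) (by fun_prop) (fun z => by positivity)
    (h.far p hR)
  have e : Kᶜ = ball p R \ K ∪ (ball p R)ᶜ \ K := by
    rw [← union_diff_distrib, union_compl_self, compl_eq_univ_diff]
  have hK := h.closed.measurableSet
  rw [e]
  refine (i1.congr_fun (fun z hz => ?_) (measurableSet_ball.diff hK)).union
    (i2.congr_fun (fun z hz => ?_) (measurableSet_ball.compl.diff hK))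
  · simp only [if_pos (mem_ball_iff_norm.1 hz.1)]
  · simp only [if_neg fun h' => hz.1 (mem_ball_iff_norm.2 h')]

theorem b6Der_bd {G : ℂ → ℂ} {M δ : ℝ} {p p₀ : ℂ} (hp : p ∈ ball p₀ δ)
    (hM : ∀ z, ‖fderiv ℝ G z‖ ≤ M ∧ ‖fderiv ℝ G z‖ * ‖z‖ ^ 2 ≤ M) (z : ℂ) :
    ‖fderiv ℝ G (z - p)‖ ≤ 4 * M * if ‖z - p₀‖ < 2 * δ then 1 else ‖z - p₀‖⁻¹ ^ 2 := by
  have hM0 : 0 ≤ M := (norm_nonneg _).trans (hM 0).1
  split_ifs with hz
  · linarith [(hM (z - p)).1]
  rw [mem_ball, dist_eq_norm] at hp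
  have h0 := norm_nonneg (p - p₀)
  have h1 : ‖z - p₀‖ ≤ 2 * ‖z - p‖ := by
    have := norm_add_le (z - p) (p - p₀)
    rw [sub_add_sub_cancel] at this
    linarith
  have h2 : 0 < ‖z - p₀‖ := by linarith
  rw [inv_pow, ← div_eq_mul_inv, le_div_iff₀ (by positivity)]
  have h3 : ‖z - p₀‖ ^ 2 ≤ (2 * ‖z - p‖) ^ 2 := by gcongr
  have h4 := mul_le_mul_of_nonneg_left h3 (norm_nonneg (fderiv ℝ G (z - p)))
  nlinarith [(hM (z - p)).2]

theorem b6Der_tail {c : ℝ} {u : ℂ → ℝ} {K : Set ℂ} (h : GM c u K) (p₀ e : ℂ) {G : ℂ → ℂ} {M : ℝ}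
    (hG : ContDiff ℝ 2 G) (hM : ∀ z, ‖G z‖ ≤ M ∧ ‖G z‖ * ‖z‖ ≤ M ∧ ‖fderiv ℝ G z‖ ≤ M)
    (hI : IntegrableOn (fun z => fderiv ℝ u z
      (gr (fun w => (G w * (starRingEnd ℂ) e).re) (z - p₀))) Kᶜ) :
    ∫ z in Kᶜ, fderiv ℝ u z (gr (fun w => (G w * (starRingEnd ℂ) e).re) (z - p₀)) = 0 := by
  let L : ℂ →L[ℝ] ℝ := Complex.reCLM.comp ((ContinuousLinearMap.mul ℝ ℂ).flip ((starRingEnd ℂ) e))
  have hL : (fun w => (G w * (starRingEnd ℂ) e).re) = fun w => L (G w) := rfl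
  have hM0 : 0 ≤ M := (norm_nonneg _).trans (hM 0).1
  have e1 : ∀ z, fderiv ℝ u z (gr (fun w => L (G w)) (z - p₀)) =
      fderiv ℝ (fun w => L (G (w - p₀))) z (gr u z) := fun z => by
    rw [← gr_symm, gr, gr, fderiv_comp_sub (f := fun w => L (G w))]
  have b1 : ∀ z, |L (G (z - p₀))| ≤ ‖L‖ * ‖G (z - p₀)‖ := fun z => L.le_opNorm _
  rw [hL] at hI ⊢
  simp only [e1] at hI ⊢
  refine h.outer_tail (p := p₀) (q := p₀) (M := ‖L‖ * (M + M * ‖p₀‖)) (R₀ := 0)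
    (fun z _ _ _ => ?_) (fun z => (b1 z).trans ?_) (fun z _ => ?_)
    (fun ρ _ => ⟨‖L‖ * M, fun z _ _ _ => ?_⟩) hI
  · exact (L.contDiff.comp ((hG.of_le (by norm_num)).comp
      (contDiff_id.sub contDiff_const))).contDiffAt
  · exact mul_le_mul_of_nonneg_left ((hM _).1.trans (le_add_of_nonneg_right (by positivity)))
      (norm_nonneg L)
  · have h1 : ‖z‖ ≤ ‖z - p₀‖ + ‖p₀‖ := by simpa using norm_add_le (z - p₀) p₀
    refine (mul_le_mul (b1 z) h1 (norm_nonneg _) (by positivity)).trans ?_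
    rw [mul_assoc, mul_add ‖G (z - p₀)‖]
    exact mul_le_mul_of_nonneg_left (add_le_add (hM _).2.1
      (mul_le_mul_of_nonneg_right (hM _).1 (norm_nonneg _))) (norm_nonneg L)
  · have h1 : HasFDerivAt (fun w => L (G w)) _ (z - p₀) :=
      L.hasFDerivAt.comp (z - p₀) (hG.differentiable (by norm_num) _).hasFDerivAt
    rw [fderiv_comp_sub (f := fun w => L (G w)), h1.fderiv]
    exact (L.opNorm_comp_le _).trans (mul_le_mul_of_nonneg_left (hM _).2.2 (norm_nonneg L))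


theorem far_deriv {c : ℝ} {u : ℂ → ℝ} {K : Set ℂ} (h : GM c u K) {p₀ : ℂ} {δ : ℝ} (hδ : 0 < δ)
    (hB : Disjoint (ball p₀ (4 * δ)) K) {G : ℂ → ℂ} {b : ℝ → ℝ} {M : ℝ} (hG : ContDiff ℝ 2 G)
    (hb : Continuous b) (hb0 : ∀ s, 2 * δ ≤ s → b s = 0)
    (hb1 : (∫ s in (0 : ℝ)..(2 * δ), s * b s) = 1)
    (hM : ∀ z, ‖G z‖ ≤ M ∧ ‖G z‖ * ‖z‖ ≤ M ∧ ‖fderiv ℝ G z‖ ≤ M ∧ ‖fderiv ℝ G z‖ * ‖z‖ ^ 2 ≤ M)
    (hid : ∀ z e : ℂ, fderiv ℝ G z e =
      gr (fun w => (G w * (starRingEnd ℂ) e).re) z + b ‖z‖ • (Complex.I * e)) :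
    HasFDerivAt (fun p => ∫ z in Kᶜ, fderiv ℝ u z (G (z - p) - G (z - p₀)))
      ((2 * Real.pi) • (fderiv ℝ u p₀).comp (ContinuousLinearMap.mul ℝ ℂ (-Complex.I))) p₀ := by
  have hGd := hG.differentiable (by norm_num)
  have hG0 := hG.continuous
  have hGc : Continuous (fderiv ℝ G) := hG.continuous_fderiv (by norm_num)
  have iw := (weight_int h p₀ (R := 2 * δ) (by linarith)).const_mul (4 * M)
  have hm : AEStronglyMeasurable (fun z => -(fderiv ℝ u z).comp (fderiv ℝ G (z - p₀)))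
      (volume.restrict Kᶜ) := by
    have h1 : Continuous fun q : (ℂ →L[ℝ] ℝ) × (ℂ →L[ℝ] ℂ) => -q.1.comp q.2 := by fun_prop
    exact h1.comp_aestronglyMeasurable ((measurable_fderiv ℝ u).aestronglyMeasurable.prodMk
      (hGc.comp (continuous_id.sub continuous_const)).aestronglyMeasurable)
  have hbd : ∀ z, ∀ p ∈ ball p₀ δ, ‖-(fderiv ℝ u z).comp (fderiv ℝ G (z - p))‖ ≤
      4 * M * (‖fderiv ℝ u z‖ * if ‖z - p₀‖ < 2 * δ then 1 else ‖z - p₀‖⁻¹ ^ 2) := fun z p hp => by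
    rw [norm_neg, mul_left_comm]
    exact (ContinuousLinearMap.opNorm_comp_le _ _).trans (mul_le_mul_of_nonneg_left
      (b6Der_bd hp (fun z => (hM z).2.2) z) (norm_nonneg _))
  have iF := iw.mono' hm (ae_of_all _ fun z => hbd z p₀ (mem_ball_self hδ))
  have main := hasFDerivAt_integral_of_dominated_of_fderiv_le (μ := volume.restrict Kᶜ)
    (F := fun p z => fderiv ℝ u z (G (z - p) - G (z - p₀)))
    (F' := fun p z => -(fderiv ℝ u z).comp (fderiv ℝ G (z - p))) (ball_mem_nhds p₀ hδ)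
    (Eventually.of_forall fun p => (b6Der_meas u (Continuous.measurable (by fun_prop))).aestronglyMeasurable)
    (by simp) hm (ae_of_all _ hbd) iw (ae_of_all _ fun z p _ => by
      have h1 := ((hGd (z - p)).hasFDerivAt.comp p
        ((hasFDerivAt_id p).const_sub z)).sub_const (G (z - p₀))
      refine ((fderiv ℝ u z).hasFDerivAt.comp p h1).congr_fderiv ?_
      ext <;> simp)
  refine main.congr_fderiv (ContinuousLinearMap.ext fun e => ?_)
  have hB2 : Disjoint (ball p₀ (2 * δ)) K := hB.mono_left (ball_subset_ball (by linarith))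
  obtain ⟨j1, j2⟩ := radial_mean (p := p₀) (ρ := 2 * δ) (R := 4 * δ) (by linarith) (by linarith)
    (b6Der_reg h hB).2 hb (Complex.I * e)
  obtain ⟨j3, j4⟩ := b6Der_ext h.closed hB2 j1 fun z hz => by
    rw [hb0 _ (by rwa [mem_ball, dist_eq_norm, not_lt] at hz), zero_mul]
  rw [j2, hb1] at j4
  simp only [← fderiv_eq_dz] at j3 j4
  have e1 : ∀ z, fderiv ℝ u z (gr (fun w => (G w * (starRingEnd ℂ) e).re) (z - p₀)) =
      -(-(fderiv ℝ u z).comp (fderiv ℝ G (z - p₀))) e -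
        b ‖z - p₀‖ * fderiv ℝ u z (Complex.I * e) := fun z => by
    simp only [ContinuousLinearMap.neg_apply, ContinuousLinearMap.comp_apply, hid, map_add,
      map_smul, smul_eq_mul]
    ring
  have i1 := (iF.apply_continuousLinearMap e).fun_neg
  have t := b6Der_tail h p₀ e hG (fun z => ⟨(hM z).1, (hM z).2.1, (hM z).2.2.1⟩)
    (by simp only [e1]; exact i1.sub j3)
  simp only [e1] at t
  rw [integral_sub i1 j3, integral_neg, j4] at t
  rw [ContinuousLinearMap.integral_apply iF]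
  change _ = 2 * Real.pi * fderiv ℝ u p₀ (-Complex.I * e)
  rw [neg_mul, map_neg]
  linarith

theorem cj_deriv {c : ℝ} {u : ℂ → ℝ} {K : Set ℂ} (h : GM c u K) {p₀ : ℂ} (hp : p₀ ∉ K) :
    HasFDerivAt (cj u K)
      ((fderiv ℝ u p₀).comp (ContinuousLinearMap.mul ℝ ℂ (-Complex.I))) p₀ := by
  obtain ⟨ε, hε, hb⟩ := Metric.isOpen_iff.1 h.closed.isOpen_compl p₀ hp
  have hδ : 0 < ε / 4 := by linarith
  generalize hd : ε / 4 = δ at hδ
  have hB : Disjoint (ball p₀ (4 * δ)) K := by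
    rw [← hd, mul_div_cancel₀ _ four_ne_zero]
    exact disjoint_left.2 hb
  obtain ⟨G, a, b, M, g1, g2, -, g4, g5, g6, g7, g8, g9, g10⟩ := exists_smooth_ker hδ
  have main := ((far_deriv h hδ hB g1 g2 (fun s hs => (g5 s hs).2) g8 g9 g10).const_mul
    (2 * Real.pi)⁻¹).add_const (cj u K p₀)
  rw [smul_smul, inv_mul_cancel₀ (by positivity), one_smul] at main
  refine main.congr_of_eventuallyEq ?_
  have nz : ∀ p ∈ ball p₀ δ, _ := fun p hp =>
    near_zero h hδ (p := p) (hB.mono_left (ball_subset_ball' (by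
      rw [mem_ball] at hp
      linarith))) (H := fun z => ker z - G z) g7 g4 (fun s hs => (g5 s hs).1) g6
  filter_upwards [ball_mem_nhds p₀ hδ] with p hp
  obtain ⟨n1, n2⟩ := nz p hp
  obtain ⟨n3, n4⟩ := nz p₀ (mem_ball_self hδ)
  have e : ∀ z, fderiv ℝ u z (G (z - p) - G (z - p₀)) =
      fderiv ℝ u z (ker (z - p) - ker (z - p₀)) - fderiv ℝ u z (ker (z - p) - G (z - p)) +
        fderiv ℝ u z (ker (z - p₀) - G (z - p₀)) := fun z => by
    simp only [map_sub]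
    ring
  simp only [e]
  rw [integral_add ((phi_int h p p₀).1.fun_sub n1) n3, integral_sub (phi_int h p p₀).1 n1, n2, n4,
    sub_zero, add_zero, ← cj_sub h, sub_add_cancel]

end Vale.Agent.P128
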