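import Vale.Agent.P128.B4.Main

/-! P128 B6/Easy (TASK): four short statements.

Plan. `Conj.rescale`: `dist (x + ρ z) (x + ρ z') = ρ * dist z z'`, `Real.sqrt_mul`; chain rule and
the last item of `resc_real`. `Conj.sub_const`: `HasFDerivAt.sub_const`.
`sphere_meets`: `NC1` with `GM.noPiece`, `connectedComponentIn_subset`.
`gap_two_pi`: a point of the circle is `circleMap x s θ₀` (`range_circleMap`); shift `θ₀` by a
multiple of `2π` into `Ico θ (θ + 2π)` (`toIcoMod`, `periodic_circleMap`).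
`V3`: `T5_exact` with `κ = 1` (`Real.rpow_one`), `DIZ` with `ω = 2π`
(`ae_restrict_of_ae_restrict_of_subset`), finiteness from `AM0.upper_real`.
`IsRay.low`: on `ball y t \ K` we have `dist w z ≥ dist y z / 2` and
`‖w - z‖ * ‖dz u w‖^2 = 1 / (2π)`, so `‖fderiv ℝ u w‖^2 ≤ 1 / (π * dist y z)` (`norm_dz`);
`Complex.volume_ball`, `ENNReal.toReal_le_of_le_ofReal`. No measurability is needed if you bound
the integrand on the measurable set `ball y t \ K` (`K = cone 1 z e` is closed; or use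
`setLIntegral_le...` with `lintegral_mono` on an indicator; `cone 1 z e` is the image of `Ici 0`
under `t ↦ z + t * e` since `rt 1 = 1`). -/

namespace Vale.Agent.P128

open MeasureTheory Set Metric Filter Topology
open scoped ENNReal NNReal

theorem Conj.rescale {u v : ℂ → ℝ} {K : Set ℂ} (h : Conj u K v) (x : ℂ) {ρ : ℝ} (hρ : 0 < ρ) :
    Conj (rescU u x ρ) (rescS K x ρ) (rescU v x ρ) := by
  have hs : 0 < √ρ := Real.sqrt_pos.2 hρ
  refine ⟨fun z z' => ?_, fun z hz => ?_⟩
  · have := h.holder (x + ρ * z) (x + ρ * z')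
    rw [resc_dist x hρ, Real.sqrt_mul hρ.le] at this
    unfold rescU
    rw [← sub_div, abs_div, abs_of_pos hs, div_le_iff₀ hs]
    linarith
  · have h1 : HasFDerivAt (fun z : ℂ => x + ρ * z) (ρ • ContinuousLinearMap.id ℝ ℂ) z :=
      ((hasFDerivAt_id z).const_smul ρ).const_add x
    have h2 := ((h.deriv _ hz).comp z h1).const_smul (√ρ)⁻¹
    rw [(resc_fderiv u x hρ z).1]
    refine (h2.congr_fderiv ?_).congr_of_eventuallyEq (Eventually.of_forall fun w => ?_)
    · rw [ContinuousLinearMap.comp_smul, ContinuousLinearMap.comp_id, smul_smul,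
        ContinuousLinearMap.smul_comp, inv_mul_eq_div, Real.div_sqrt]
    · exact div_eq_inv_mul _ _

theorem Conj.sub_const {u v : ℂ → ℝ} {K : Set ℂ} (h : Conj u K v) (a : ℝ) :
    Conj u K (fun z => v z - a) := by
  exact ⟨fun z z' => by rw [sub_sub_sub_cancel_right]; exact h.holder z z',
    fun z hz => (h.deriv z hz).sub_const a⟩

theorem sphere_meets {c : ℝ} {u : ℂ → ℝ} {K : Set ℂ} (h : GM c u K) {x : ℂ} (hx : x ∈ K)
    {s : ℝ} (hs : 0 < s) : (K ∩ sphere x s).Nonempty := by
  obtain ⟨w, h1, h2⟩ := NC1 h.closed h.noPiece (x := x) (R := s) ⟨hx, mem_closedBall_self hs.le⟩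
  exact ⟨w, (connectedComponentIn_subset _ _ h1).1, h2⟩

theorem gap_two_pi {K : Set ℂ} {x : ℂ} {s : ℝ} (hs : 0 < s) (h : (K ∩ sphere x s).Nonempty) :
    Gap K x s (2 * Real.pi) := by
  obtain ⟨w, h1, h2⟩ := h
  rw [← abs_of_pos hs, ← range_circleMap] at h2
  obtain ⟨θ₀, rfl⟩ := h2
  refine fun θ => ⟨toIcoMod Real.two_pi_pos θ θ₀,
    Ico_subset_Icc_self (toIcoMod_mem_Ico Real.two_pi_pos θ θ₀), ?_⟩
  rw [toIcoMod, (periodic_circleMap x s).sub_zsmul_eq]
  exact h1

/-- Bonnet monotonicity. -/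
theorem V3 {c : ℝ} {u : ℂ → ℝ} {K : Set ℂ} (h : GM c u K) (hz : ZF u K) {x : ℂ} (hx : x ∈ K) :
    MonotoneOn (fun s => D u K x s / s) (Ioi 0) := by
  obtain ⟨v, hv, h0⟩ := hz
  intro a ha b hb hab
  have := T5_exact (u := u) h.closed (y := x) (κ := 1) ha hab
    ((h.toAM0.upper_real hb (subset_univ _)).2.1 ▸ ENNReal.ofReal_lt_top) one_pos (by
      filter_upwards [ae_restrict_of_ae_restrict_of_subset
        (fun s hs => lt_trans ha hs.1 : Ioo a b ⊆ Ioi 0) (DIZ h hv h0 x),
        ae_restrict_mem measurableSet_Ioo] with s hs hs'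
      have hs0 : 0 < s := lt_trans ha hs'.1
      have hm := sphere_meets h hx hs0
      have := (hs.2.2 hm).2 _ Real.two_pi_pos le_rfl (gap_two_pi hs0 hm)
      rwa [div_self Real.two_pi_pos.ne'] at this)
  simpa only [div_one, Real.rpow_one] using this

theorem cone_one_eq (z e : ℂ) : cone 1 z e = {w | ∃ t : ℝ, 0 ≤ t ∧ w = z + t * e} := by
  have : rt 1 = 1 := by simp [rt]
  simp only [cone, this, one_pow, mul_one, exists_const]

theorem cone_one_closed (z : ℂ) {e : ℂ} (he : ‖e‖ = 1) : IsClosed (cone 1 z e) := by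
  have hi : Isometry fun t : ℝ => z + t * e := Isometry.of_dist_eq fun s t => by
    rw [dist_add_left, dist_eq_norm, ← sub_mul, norm_mul, he, mul_one, ← Complex.ofReal_sub,
      Complex.norm_real, dist_eq_norm]
  rw [cone_one_eq]
  refine (congrArg IsClosed (Set.ext fun w => ?_)).mp
    (hi.isClosedEmbedding.isClosedMap _ (isClosed_Ici (a := (0 : ℝ))))
  exact ⟨fun ⟨t, h1, h2⟩ => ⟨t, h1, h2.symm⟩, fun ⟨t, h1, h2⟩ => ⟨t, h1, h2.symm⟩⟩

/-- Energy of a ray away from its tip. -/
theorem IsRay.low {u : ℂ → ℝ} {K : Set ℂ} {z e : ℂ} (h : IsRay u K z e 1) {y : ℂ} {t : ℝ}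
    (ht : 0 < t) (hy : 2 * t ≤ dist y z) : D u K y t ≤ t ^ 2 / dist y z := by
  have hd : 0 < dist y z := by linarith
  have hK : IsClosed K := h.eq ▸ cone_one_closed z h.unit
  have hπ := Real.pi_pos
  refine ENNReal.toReal_le_of_le_ofReal (by positivity) ?_
  refine (setLIntegral_mono' (g := fun _ => ENNReal.ofReal (1 / (Real.pi * dist y z)))
    (measurableSet_ball.diff hK.measurableSet) fun w hw => ?_).trans ?_
  · have h1 := congrArg norm (h.sq w hw.2)
    rw [norm_mul, norm_mul, norm_pow, (norm_dz u w).1, Complex.norm_conj, h.unit, mul_one,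
      Complex.norm_real, Real.norm_of_nonneg (by positivity), ← dist_eq_norm,
      eq_div_iff (by positivity)] at h1
    have h2 := dist_triangle y w z
    have h3 : dist y w < t := dist_comm w y ▸ hw.1
    rw [← ofReal_norm, ← ENNReal.ofReal_pow (norm_nonneg _)]
    refine ENNReal.ofReal_le_ofReal ((le_div_iff₀ (by positivity)).2 ?_)
    nlinarith [mul_nonneg (mul_nonneg hπ.le (sq_nonneg ‖fderiv ℝ u w‖))
      (by linarith : 0 ≤ 2 * dist w z - dist y z)]
  · rw [setLIntegral_const]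
    refine (mul_le_mul_right (measure_mono sdiff_subset) _).trans (le_of_eq ?_)
    rw [Complex.volume_ball, ← ENNReal.ofReal_pow ht.le, ← ENNReal.ofReal_coe_nnreal,
      ← ENNReal.ofReal_mul (by positivity), ← ENNReal.ofReal_mul (by positivity), NNReal.coe_real_pi]
    refine congrArg _ ?_
    field_simp

end Vale.Agent.P128
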