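import Vale.Agent.P128.B4.Main

/-! P128 B6/Fin (TASK): a function that is constant on continua inside `K` has finitely many
values on `K`.

Plan for `finite_values`. If `v '' K` is infinite take nine points `p i ∈ K` (`i : Fin 9`) with
pairwise different values (`Set.Infinite.exists_subset_card_eq` or `Set.Infinite.natEmbedding`),
`ρ` with `‖p i‖ ≤ ρ`, `R = 9 ρ + 1`, `S = K ∩ closedBall 0 R` (compact), `C i = connectedComponentIn S (p i)`.
By `comp_compact` these are continua, `v` is constant on each, so they are pairwise disjoint; by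
`NC1` and `GM.noPiece` each meets `sphere 0 R`, so `cont_len` gives length at least `R - ρ`.
`measure_biUnion_finset` or `sum_measure_le_measure_univ`, and `AM0.upper`: `9 (R - ρ) ≤ 8 R`, false.
Plan for `const_of_finite`: `v '' C` is preconnected in `ℝ` and finite; if `v p < v q` it contains
the infinite set `Icc (v p) (v q)` (`IsPreconnected.Icc_subset`, `Set.Icc_infinite`). -/

namespace Vale.Agent.P128

open MeasureTheory Set Metric Filter Topology
open scoped ENNReal NNReal

theorem finite_values {c : ℝ} {u : ℂ → ℝ} {K : Set ℂ} (h : GM c u K) {v : ℂ → ℝ}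
    (hv : ∀ C ⊆ K, IsCompact C → IsPreconnected C → ∀ p ∈ C, ∀ q ∈ C, v p = v q) :
    (v '' K).Finite := by
  by_contra hinf
  have hi : (v '' K).Infinite := hinf
  have hp : ∀ i : ℕ, ∃ p ∈ K, v p = (hi.natEmbedding _ i : ℝ) := fun i => (hi.natEmbedding _ i).2
  choose p hpK hpv using hp
  obtain ⟨ρ, hρ⟩ : ∃ ρ : ℝ, ρ = ∑ i ∈ Finset.range 9, ‖p i‖ := ⟨_, rfl⟩
  have hρi : ∀ i ∈ Finset.range 9, ‖p i‖ ≤ ρ := fun i hi =>
    hρ ▸ Finset.single_le_sum (fun j _ => norm_nonneg (p j)) hi
  have hρ0 : 0 ≤ ρ := hρ ▸ Finset.sum_nonneg fun j _ => norm_nonneg _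
  set S := K ∩ closedBall (0 : ℂ) (9 * ρ + 1) with hSdef
  have hS : IsCompact S := (isCompact_closedBall _ _).inter_left h.closed
  have hpS : ∀ i ∈ Finset.range 9, p i ∈ S := fun i hi =>
    ⟨hpK i, by rw [mem_closedBall_zero_iff]; linarith [hρi i hi]⟩
  have hlen : ∀ i ∈ Finset.range 9,
      ENNReal.ofReal (8 * ρ + 1) ≤ μH[1] (connectedComponentIn S (p i)) := fun i hi => by
    obtain ⟨q, hq, hq'⟩ := NC1 h.closed h.noPiece (hpS i hi)
    refine (cont_len (comp_compact hS (hpS i hi)).2.isPreconnected
      (mem_connectedComponentIn (hpS i hi)) hq (t := 8 * ρ + 1) ?_).trans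
      (measure_mono inter_subset_left)
    rw [mem_sphere_zero_iff_norm] at hq'
    have h1 := norm_sub_norm_le q (p i)
    rw [dist_eq_norm]
    linarith [hρi i hi]
  have hval : ∀ i ∈ Finset.range 9, ∀ w ∈ connectedComponentIn S (p i), v (p i) = v w :=
    fun i hi w hw => hv _ ((connectedComponentIn_subset _ _).trans inter_subset_left)
      (comp_compact hS (hpS i hi)).1 (comp_compact hS (hpS i hi)).2.isPreconnected _
      (mem_connectedComponentIn (hpS i hi)) w hw
  have hdisj : (↑(Finset.range 9) : Set ℕ).PairwiseDisjoint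
      fun i => connectedComponentIn S (p i) := fun i hi' j hj hne => by
    rw [Function.onFun, Set.disjoint_left]
    intro w hw hw'
    have h1 := (hval i hi' w hw).trans (hval j hj w hw').symm
    rw [hpv, hpv] at h1
    exact hne ((hi.natEmbedding _).injective (Subtype.ext h1))
  have hsum := measure_biUnion_finset (μ := (μH[1] : Measure ℂ)) hdisj
    fun i hi => (comp_compact hS (hpS i hi)).1.isClosed.measurableSet
  have hup : μH[1] S ≤ ENNReal.ofReal (8 * (9 * ρ + 1)) :=
    le_trans le_add_self (h.toAM0.upper (y := 0) (r := 9 * ρ + 1) (by linarith) (subset_univ _))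
  have h2 : ENNReal.ofReal (∑ _i ∈ Finset.range 9, (8 * ρ + 1)) ≤
      ENNReal.ofReal (8 * (9 * ρ + 1)) := by
    rw [ENNReal.ofReal_sum_of_nonneg fun _ _ => by linarith]
    refine (Finset.sum_le_sum hlen).trans (hsum.symm.le.trans (le_trans (measure_mono ?_) hup))
    exact iUnion₂_subset fun i _ => connectedComponentIn_subset _ _
  rw [ENNReal.ofReal_le_ofReal_iff (by linarith), Finset.sum_const, Finset.card_range,
    nsmul_eq_mul] at h2
  push_cast at h2
  linarith

theorem const_of_finite {K : Set ℂ} {v : ℂ → ℝ} (hv : Continuous v) (hf : (v '' K).Finite) :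
    ∀ C ⊆ K, IsPreconnected C → ∀ p ∈ C, ∀ q ∈ C, v p = v q := by
  intro C hC hc
  have hpre : IsPreconnected (v '' C) := hc.image _ hv.continuousOn
  have hfin : (v '' C).Finite := hf.subset (image_mono hC)
  have key : ∀ p ∈ C, ∀ q ∈ C, v q ≤ v p := fun p hp q hq => by
    by_contra hlt
    exact Set.Icc_infinite (not_le.1 hlt)
      (hfin.subset (hpre.Icc_subset (mem_image_of_mem v hp) (mem_image_of_mem v hq)))
  exact fun p hp q hq => le_antisymm (key q hq p hp) (key p hp q hq)

theorem continuous_of_holder {v : ℂ → ℝ} (h : ∀ z z', |v z - v z'| ≤ 1000 * √(dist z z')) :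
    Continuous v := by
  refine continuous_iff_continuousAt.2 fun z => ?_
  rw [ContinuousAt, tendsto_iff_dist_tendsto_zero]
  have h1 : Continuous fun w : ℂ => 1000 * √(dist w z) := by fun_prop
  have h2 := h1.tendsto z
  simp only [dist_self, Real.sqrt_zero, mul_zero] at h2
  exact squeeze_zero (fun _ => dist_nonneg) (fun w => by rw [Real.dist_eq]; exact h w z) h2

end Vale.Agent.P128
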