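import Vale.Agent.P128.B6.Ker

/-! P128 B6/Hold (TASK): the conjugate function as an integral and its Hoelder bound.

`ker z = I / conj z` is the gradient of the argument. Plan. `norm_ker`: `norm_div`. For `z ≠ p, q`:
`ker (z - p) - ker (z - q) = I * conj (p - q) / (conj (z - p) * conj (z - q))`.
`phi_bound`: if `p = q` the integrand is zero. Otherwise `δ = ‖p - q‖ > 0`; split `Kᶜ` into
`ball p (2δ) \ K` and `(ball p (2δ))ᶜ \ K`. On the first set
`‖ker (z-p) - ker (z-q)‖ ≤ ‖z-p‖⁻¹ + ‖z-q‖⁻¹` and `ball p (2δ) ⊆ ball q (3δ)`: `GM.near` twice gives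
`120 (√2 + √3) √δ ≤ 380 √δ`. On the second `‖z - q‖ ≥ ‖z - p‖/2`, so the norm is at most
`2 δ ‖z - p‖⁻¹^2`: `GM.far` gives `2 δ * 240 / √(2δ) ≤ 340 √δ`.
`phi_int`: measurability from `measurable_fderiv` (`fderiv_eq_dz`, or
`ContinuousLinearMap.measurable_apply₂` style lemmas; `measurable_fderiv_apply_const` for `dz`),
finiteness from `phi_bound` and `ContinuousLinearMap.le_opENorm` / `le_opNorm`.
`cj_sub`: `integral_sub`, `map_sub`. `cj_holder`: `norm_integral_le_lintegral_norm`, `1/(2π) ≤ 1`. -/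

namespace Vale.Agent.P128

open MeasureTheory Set Metric Filter Topology
open scoped ENNReal NNReal

/-- The gradient of the argument. -/
noncomputable def ker (z : ℂ) : ℂ := Complex.I / (starRingEnd ℂ) z

/-- The conjugate function. -/
noncomputable def cj (u : ℂ → ℝ) (K : Set ℂ) (p : ℂ) : ℝ :=
  (2 * Real.pi)⁻¹ * ∫ z in Kᶜ, fderiv ℝ u z (ker (z - p) - ker (z - 0))

theorem norm_ker (z : ℂ) : ‖ker z‖ = ‖z‖⁻¹ := by
  rw [ker, norm_div, Complex.norm_I, Complex.norm_conj, one_div]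

theorem b6Hold_far {p q z : ℂ} (hδ : 0 < dist p q) (hz : 2 * dist p q ≤ dist z p) :
    ‖ker (z - p) - ker (z - q)‖ ≤ 2 * dist p q * ‖z - p‖⁻¹ ^ 2 := by
  have h1 := dist_triangle z q p
  rw [dist_comm q p] at h1
  rw [dist_eq_norm z] at hz
  rw [dist_eq_norm z, dist_eq_norm z] at h1
  have hp : 0 < ‖z - p‖ := by linarith
  have hq : 0 < ‖z - q‖ := by linarith
  have cp : (starRingEnd ℂ) (z - p) ≠ 0 := (map_ne_zero _).2 (norm_pos_iff.1 hp)
  have cq : (starRingEnd ℂ) (z - q) ≠ 0 := (map_ne_zero _).2 (norm_pos_iff.1 hq)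
  have e : ker (z - p) - ker (z - q) = Complex.I * (starRingEnd ℂ) (p - q) /
      ((starRingEnd ℂ) (z - p) * (starRingEnd ℂ) (z - q)) := by
    rw [ker, ker, div_sub_div _ _ cp cq]
    congr 1
    simp only [map_sub]
    ring
  rw [e, norm_div, norm_mul, norm_mul, Complex.norm_I, Complex.norm_conj, Complex.norm_conj,
    Complex.norm_conj, one_mul, ← dist_eq_norm p, inv_pow, ← div_eq_mul_inv,
    div_le_div_iff₀ (mul_pos hp hq) (pow_pos hp 2)]
  nlinarith [mul_nonneg (mul_pos hδ hp).le (show 0 ≤ 2 * ‖z - q‖ - ‖z - p‖ by linarith)]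

theorem b6Hold_meas (p q : ℂ) : Measurable fun z => ker (z - p) - ker (z - q) := by
  have h : Measurable ker := measurable_const.div Complex.continuous_conj.measurable
  exact (h.comp (measurable_id.sub_const p)).sub (h.comp (measurable_id.sub_const q))

theorem phi_bound {c : ℝ} {u : ℂ → ℝ} {K : Set ℂ} (h : GM c u K) (p q : ℂ) :
    (∫⁻ z in Kᶜ, ‖fderiv ℝ u z‖ₑ * ‖ker (z - p) - ker (z - q)‖ₑ) ≤
      ENNReal.ofReal (720 * √(dist p q)) := by
  rcases eq_or_ne p q with rfl | hpq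
  · simp
  have hδ : 0 < dist p q := dist_pos.2 hpq
  have h2 : 0 < 2 * dist p q := by positivity
  have hs : Kᶜ ⊆ (ball p (2 * dist p q) \ K) ∪ ((ball p (2 * dist p q))ᶜ \ K) := by
    rw [← union_diff_distrib, union_compl_self, compl_eq_univ_diff]
  have hm : Measurable fun z => ‖fderiv ℝ u z‖ₑ * ENNReal.ofReal (‖z - p‖⁻¹) :=
    (measurable_fderiv ℝ u).enorm.mul (measurable_id.sub_const p).norm.inv.ennreal_ofReal
  have a1 : (∫⁻ z in ball p (2 * dist p q) \ K, ‖fderiv ℝ u z‖ₑ * ‖ker (z - p) - ker (z - q)‖ₑ) ≤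
      ENNReal.ofReal (120 * √(2 * dist p q)) + ENNReal.ofReal (120 * √(3 * dist p q)) := by
    refine le_trans (lintegral_mono (g := fun z => ‖fderiv ℝ u z‖ₑ * ENNReal.ofReal (‖z - p‖⁻¹) +
      ‖fderiv ℝ u z‖ₑ * ENNReal.ofReal (‖z - q‖⁻¹)) fun z => ?_) ?_
    · beta_reduce
      rw [← mul_add, ← norm_ker, ← norm_ker, ofReal_norm_eq_enorm, ofReal_norm_eq_enorm]
      exact mul_le_mul_right enorm_sub_le _
    · rw [lintegral_add_left hm]
      refine add_le_add (h.near p h2) ((lintegral_mono_set ?_).trans (h.near q (by positivity)))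
      exact diff_subset_diff_left (ball_subset_ball' (by linarith))
  have a2 : (∫⁻ z in (ball p (2 * dist p q))ᶜ \ K,
      ‖fderiv ℝ u z‖ₑ * ‖ker (z - p) - ker (z - q)‖ₑ) ≤
      ENNReal.ofReal (240 * √(2 * dist p q)) := by
    refine le_trans (setLIntegral_mono' (g := fun z => ENNReal.ofReal (2 * dist p q) *
      (‖fderiv ℝ u z‖ₑ * ENNReal.ofReal (‖z - p‖⁻¹ ^ 2)))
      (measurableSet_ball.compl.diff h.closed.measurableSet) fun z hz => ?_) ?_
    · rw [mul_left_comm, ← ENNReal.ofReal_mul h2.le, ← ofReal_norm_eq_enorm (ker _ - _)]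
      exact mul_le_mul_right (ENNReal.ofReal_le_ofReal (b6Hold_far hδ (not_lt.1 hz.1))) _
    · rw [lintegral_const_mul' _ _ ENNReal.ofReal_ne_top]
      refine (mul_le_mul_right (h.far p h2) _).trans_eq ?_
      rw [← ENNReal.ofReal_mul h2.le, mul_div_left_comm, Real.div_sqrt]
  have s2 : √(2 * dist p q) ≤ 1.42 * √(dist p q) :=
    Real.sqrt_le_iff.2 ⟨by positivity, by rw [mul_pow, Real.sq_sqrt hδ.le]; linarith⟩
  have s3 : √(3 * dist p q) ≤ 1.74 * √(dist p q) :=
    Real.sqrt_le_iff.2 ⟨by positivity, by rw [mul_pow, Real.sq_sqrt hδ.le]; linarith⟩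
  refine ((lintegral_mono_set hs).trans (lintegral_union_le _ _ _)).trans
    ((add_le_add a1 a2).trans ?_)
  rw [← ENNReal.ofReal_add (by positivity) (by positivity),
    ← ENNReal.ofReal_add (by positivity) (by positivity)]
  exact ENNReal.ofReal_le_ofReal (by linarith)

theorem phi_int {c : ℝ} {u : ℂ → ℝ} {K : Set ℂ} (h : GM c u K) (p q : ℂ) :
    IntegrableOn (fun z => fderiv ℝ u z (ker (z - p) - ker (z - q))) Kᶜ ∧
    IntegrableOn (fun z => ‖fderiv ℝ u z‖ * ‖ker (z - p) - ker (z - q)‖) Kᶜ := by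
  have h2 : IntegrableOn (fun z => ‖fderiv ℝ u z‖ * ‖ker (z - p) - ker (z - q)‖) Kᶜ := by
    refine ⟨((measurable_fderiv ℝ u).norm.mul (b6Hold_meas p q).norm).aestronglyMeasurable, ?_⟩
    refine lt_of_le_of_lt (le_of_eq ?_) ((phi_bound h p q).trans_lt ENNReal.ofReal_lt_top)
    exact lintegral_congr fun z => by rw [enorm_mul, enorm_norm, enorm_norm]
  have hd : Measurable (dz u) :=
    (Complex.measurable_ofReal.comp (measurable_fderiv_apply_const ℝ u 1)).sub
      ((Complex.measurable_ofReal.comp (measurable_fderiv_apply_const ℝ u Complex.I)).const_mul _)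
  refine ⟨Integrable.mono' h2 ?_ (Eventually.of_forall fun z => (fderiv ℝ u z).le_opNorm _), h2⟩
  simp only [fderiv_eq_dz]
  exact (Complex.measurable_re.comp (hd.mul (b6Hold_meas p q))).aestronglyMeasurable

theorem cj_sub {c : ℝ} {u : ℂ → ℝ} {K : Set ℂ} (h : GM c u K) (p q : ℂ) :
    cj u K p - cj u K q =
      (2 * Real.pi)⁻¹ * ∫ z in Kᶜ, fderiv ℝ u z (ker (z - p) - ker (z - q)) := by
  rw [cj, cj, ← mul_sub, ← integral_sub (phi_int h p 0).1 (phi_int h q 0).1]
  simp only [← map_sub, sub_sub_sub_cancel_right]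

theorem cj_holder {c : ℝ} {u : ℂ → ℝ} {K : Set ℂ} (h : GM c u K) (p q : ℂ) :
    |cj u K p - cj u K q| ≤ 1000 * √(dist p q) := by
  have h1 : ‖∫ z in Kᶜ, fderiv ℝ u z (ker (z - p) - ker (z - q))‖ ≤ 720 * √(dist p q) := by
    refine (norm_integral_le_lintegral_norm _).trans
      (ENNReal.toReal_le_of_le_ofReal (by positivity) (le_trans (lintegral_mono fun z => ?_)
        (phi_bound h p q)))
    beta_reduce
    rw [ofReal_norm_eq_enorm]
    exact (fderiv ℝ u z).le_opENorm _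
  have h2 : (2 * Real.pi)⁻¹ ≤ 1 := inv_le_one_of_one_le₀ (by linarith [Real.pi_gt_three])
  rw [cj_sub h, abs_mul, abs_of_pos (by positivity)]
  refine (mul_le_of_le_one_left (abs_nonneg _) h2).trans (h1.trans ?_)
  linarith [Real.sqrt_nonneg (dist p q)]

end Vale.Agent.P128
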