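import Vale.Agent.P128.C.Fatou

/-! P128 B6/Ker (TASK): weighted `L¹` bounds for the gradient of a global minimizer.

Plan. `GM.l1`: `l1_le` with `η = 3` and `AM0.upper_real` (`D ≤ 8 r ≤ 9 r`).
`GM.near`: `ball p ρ \ {p}` is covered by the sets `A k = ball p (ρ / 4^k) \ ball p (ρ / 4^(k+1))`
(`exists_nat_pow_near_of_lt_one` or `Nat.find`), the point `p` is null (or the integrand vanishes
there, as `0⁻¹ = 0`); `lintegral_iUnion_le`; on `A k` the weight is at most `4^(k+1) / ρ`, so the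
term is at most `4^(k+1)/ρ * 15 (ρ/4^k) √(ρ/4^k) = 60 √ρ / 2^k`; `ENNReal.tsum_geometric` or
`ENNReal.ofReal_tsum_of_nonneg` with `tsum_geometric_two'`.
`GM.far`: `(ball p ρ)ᶜ` is covered by `ball p (ρ 4^(k+1)) \ ball p (ρ 4^k)`; the weight is at most
`(ρ 4^k)⁻¹ ^ 2`, the term at most `15 * 8 / (√ρ 2^k)`. -/

namespace Vale.Agent.P128

open MeasureTheory Set Metric Filter Topology
open scoped ENNReal NNReal

theorem GM.l1 {c : ℝ} {u : ℂ → ℝ} {K : Set ℂ} (h : GM c u K) (y : ℂ) {r : ℝ} (hr : 0 < r) :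
    (∫⁻ z in ball y r \ K, ‖fderiv ℝ u z‖ₑ) ≤ ENNReal.ofReal (15 * r * √r) := by
  have h1 := AM0.upper h.toAM0 (y := y) hr (subset_univ _)
  have h2 : Dir u (ball y r \ K) ≤ ENNReal.ofReal (3 ^ 2 * r) := by
    refine le_trans ?_ (h1.trans (ENNReal.ofReal_le_ofReal (by linarith)))
    exact (lintegral_mono_set (sdiff_subset_sdiff_left ball_subset_closedBall)).trans le_self_add
  refine (l1_le u K y hr (by norm_num) h2).trans (ENNReal.ofReal_le_ofReal (le_of_eq ?_))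
  ring

theorem b6Ker_piece {c : ℝ} {u : ℂ → ℝ} {K : Set ℂ} (h : GM c u K) (p : ℂ) {t M : ℝ}
    (ht : 0 < t) (hM : 0 ≤ M) (w : ℂ → ℝ) :
    (∫⁻ z in {z | z ∈ ball p t \ K ∧ w z ≤ M}, ‖fderiv ℝ u z‖ₑ * ENNReal.ofReal (w z)) ≤
      ENNReal.ofReal (M * (15 * t * √t)) := by
  have hm : Measurable fun z => ‖fderiv ℝ u z‖ₑ * ENNReal.ofReal M :=
    (measurable_fderiv ℝ u).enorm.mul_const _
  refine (setLIntegral_mono hm fun z hz => ?_).trans ?_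
  · exact mul_le_mul' le_rfl (ENNReal.ofReal_le_ofReal hz.2)
  · rw [lintegral_mul_const' _ _ ENNReal.ofReal_ne_top, mul_comm, ENNReal.ofReal_mul hM]
    exact mul_le_mul' le_rfl ((lintegral_mono_set fun z hz => hz.1).trans (h.l1 p ht))

theorem b6Ker_sum (f : ℂ → ℝ≥0∞) (S : Set ℂ) (A : ℕ → Set ℂ) (hS : S ⊆ ⋃ k, A k) {a : ℝ}
    (ha : 0 ≤ a) (hA : ∀ k, (∫⁻ z in A k, f z) ≤ ENNReal.ofReal (a / 2 / 2 ^ k)) :
    (∫⁻ z in S, f z) ≤ ENNReal.ofReal a := by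
  refine (lintegral_mono_set hS).trans ((lintegral_iUnion_le _ _).trans
    ((ENNReal.tsum_le_tsum hA).trans_eq ?_))
  rw [← ENNReal.ofReal_tsum_of_nonneg (fun k => by positivity) (summable_geometric_two' a),
    tsum_geometric_two']

theorem b6Ker_find {x : ℝ} (hx : 1 < x) : ∃ k : ℕ, 4 ^ k < x ∧ x ≤ 4 ^ (k + 1) := by
  have hex : ∃ k : ℕ, x ≤ 4 ^ (k + 1) := by
    obtain ⟨n, hn⟩ := pow_unbounded_of_one_lt x (by norm_num : (1 : ℝ) < 4)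
    exact ⟨n, hn.le.trans (pow_le_pow_right₀ (by norm_num) (Nat.le_succ n))⟩
  classical
  refine ⟨Nat.find hex, ?_, Nat.find_spec hex⟩
  rcases h : Nat.find hex with _ | m
  · simpa using hx
  · exact not_le.1 (Nat.find_min hex (by omega : m < Nat.find hex))

theorem b6Ker_sqrt (k : ℕ) : √((4 : ℝ) ^ k) = 2 ^ k := by
  rw [show (4 : ℝ) ^ k = (2 ^ k) ^ 2 by rw [← pow_mul, mul_comm, pow_mul]; norm_num]
  exact Real.sqrt_sq (by positivity)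

theorem GM.near {c : ℝ} {u : ℂ → ℝ} {K : Set ℂ} (h : GM c u K) (p : ℂ) {ρ : ℝ} (hρ : 0 < ρ) :
    (∫⁻ z in ball p ρ \ K, ‖fderiv ℝ u z‖ₑ * ENNReal.ofReal (‖z - p‖⁻¹)) ≤
      ENNReal.ofReal (120 * √ρ) := by
  refine b6Ker_sum _ _ (fun k => {z | z ∈ ball p (ρ / 4 ^ k) \ K ∧ ‖z - p‖⁻¹ ≤ 4 ^ (k + 1) / ρ})
    (fun z hz => ?_) (by positivity) fun k => ?_
  · rcases eq_or_ne z p with rfl | hne
    · refine mem_iUnion.2 ⟨0, ⟨mem_ball_self (by positivity), hz.2⟩, ?_⟩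
      simp only [sub_self, norm_zero, inv_zero]
      positivity
    · have hd : 0 < ‖z - p‖ := norm_pos_iff.2 (sub_ne_zero.2 hne)
      have hz1 : ‖z - p‖ < ρ := mem_ball_iff_norm.1 hz.1
      obtain ⟨k, h1, h2⟩ := b6Ker_find (x := ρ / ‖z - p‖) ((one_lt_div hd).2 hz1)
      refine mem_iUnion.2 ⟨k, ⟨mem_ball_iff_norm.2 ?_, hz.2⟩, ?_⟩
      · rw [lt_div_iff₀ (by positivity)]
        rw [lt_div_iff₀ hd] at h1
        linarith
      · rw [le_div_iff₀ hρ]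
        rw [div_eq_mul_inv] at h2
        linarith
  · refine (b6Ker_piece h p (t := ρ / 4 ^ k) (M := 4 ^ (k + 1) / ρ) (by positivity) (by positivity)
      (fun z => ‖z - p‖⁻¹)).trans (ENNReal.ofReal_le_ofReal (le_of_eq ?_))
    rw [Real.sqrt_div hρ.le, b6Ker_sqrt, pow_succ]
    field_simp
    ring

theorem GM.far {c : ℝ} {u : ℂ → ℝ} {K : Set ℂ} (h : GM c u K) (p : ℂ) {ρ : ℝ} (hρ : 0 < ρ) :
    (∫⁻ z in (ball p ρ)ᶜ \ K, ‖fderiv ℝ u z‖ₑ * ENNReal.ofReal (‖z - p‖⁻¹ ^ 2)) ≤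
      ENNReal.ofReal (240 / √ρ) := by
  refine b6Ker_sum _ _ (fun k => {z | z ∈ ball p (ρ * 4 ^ (k + 1)) \ K ∧
    ‖z - p‖⁻¹ ^ 2 ≤ (ρ * 4 ^ k)⁻¹ ^ 2}) (fun z hz => ?_) (by positivity) fun k => ?_
  · have hz1 : ρ ≤ ‖z - p‖ := not_lt.1 fun h' => hz.1 (mem_ball_iff_norm.2 h')
    obtain ⟨k, h1, h2⟩ := exists_nat_pow_near (x := ‖z - p‖ / ρ) ((one_le_div hρ).2 hz1)
      (by norm_num : (1 : ℝ) < 4)
    rw [le_div_iff₀ hρ] at h1
    rw [div_lt_iff₀ hρ] at h2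
    refine mem_iUnion.2 ⟨k, ⟨mem_ball_iff_norm.2 (by linarith), hz.2⟩, ?_⟩
    exact pow_le_pow_left₀ (by positivity) (inv_anti₀ (by positivity) (by linarith)) 2
  · refine (b6Ker_piece h p (t := ρ * 4 ^ (k + 1)) (M := (ρ * 4 ^ k)⁻¹ ^ 2) (by positivity)
      (by positivity) (fun z => ‖z - p‖⁻¹ ^ 2)).trans (ENNReal.ofReal_le_ofReal (le_of_eq ?_))
    have hs : 0 < √ρ := Real.sqrt_pos.2 hρ
    have e : ρ = √ρ ^ 2 := (Real.sq_sqrt hρ.le).symm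
    have e4 : (4 : ℝ) ^ k = (2 ^ k) ^ 2 := by rw [← pow_mul, mul_comm, pow_mul]; norm_num
    rw [Real.sqrt_mul hρ.le, b6Ker_sqrt, pow_succ (4 : ℝ), pow_succ (2 : ℝ), e4]
    have h2 : (0 : ℝ) < 2 ^ k := by positivity
    generalize (2 : ℝ) ^ k = q at h2
    generalize √ρ = s at e hs
    subst e
    field_simp
    ring

end Vale.Agent.P128
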