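import Vale.Agent.P128.B6.V4b
import Vale.Agent.P128.B6.Easy

/-! P128 B6/V4c (TASK): the equality case of Bonnet's inequality, globalization.

Plan for `ray_of_good`. Let `G` be the dense set of good radii and `E s` the unit vector of a good
radius (`choose`). `H w = (w - x) * dz u w ^ 2` is holomorphic on `Kᶜ`.
(a) Transfer principle: if `φ` is continuous at `w ≠ x` with values in a Hausdorff space, and
`φ (x + t (w - x)) = b` whenever `t` is near `1` and `t ‖w - x‖ ∈ G`, then `φ w = b`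
(`mem_closure_iff_frequently`, `tendsto_nhds_unique_of_frequently_eq`). Note `x ∈ K`.
(b) `‖H‖ = d/(2π)` on `Kᶜ` by (a), so `H` is locally constant on `Kᶜ`
(`Complex.eventually_eq_of_isLocalMax_norm`).
(c) No circle `sphere x s₀` is contained in `K`: otherwise `v = 0` on it, while for `s ∈ G` near
`s₀`, `v (x - s E s)^2 = 2 d s / π` and `|v (x - s E s) - v (x - s₀ E s)| ≤ 1000 √|s - s₀|`.
(d) So near every `s₀ > 0` there is a constant `b` with `conj (E s) = b` for `s ∈ G` near `s₀`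
(take `w₀ ∈ sphere x s₀ \ K` and the points `x + (s/s₀) (w₀ - x)`). Choose such `b = B s₀`; `B` is
locally constant on `Ioi 0` by density of `G`, hence constant (`IsPreconnected.constant` needs a
discrete target; use `isPreconnected_Ioi` with `IsLocallyConstant` on the subtype, or
`IsPreconnected.induction₂'`). So `E s = e` for all `s ∈ G`.
(e) By (a) the two formulas hold with `e` for all `w ∉ K`, resp. all `w`. If `w ∈ K` then
`‖w - x‖ = ((w - x) * conj e).re`, so `(w - x) * conj e = ‖w - x‖` and `w = x + ‖w - x‖ e`.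
The ray lies in `K` since `K` is closed and `G` is dense. Use `cone_one_eq`.
Plan for `V4`: the good radii are given by `DIZ`, `Dp_of_linear`, `sphere_meets`, `one_point`,
`good_circle`; density from `Measure.dense_of_ae` after `ae_restrict_iff'`. -/

namespace Vale.Agent.P128

open MeasureTheory Set Metric Filter Topology
open scoped ENNReal NNReal

theorem b6V4c_lim {Y : Type} [TopologicalSpace Y] [T2Space Y] {G : Set ℝ} {s₀ : ℝ}
    (hs : s₀ ∈ closure G) {ψ : ℝ → Y} (hψ : ContinuousAt ψ s₀) {b : Y}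
    (h : ∀ᶠ s in 𝓝 s₀, s ∈ G → ψ s = b) : ψ s₀ = b :=
  tendsto_nhds_unique_of_frequently_eq hψ tendsto_const_nhds
    (((mem_closure_iff_frequently.1 hs).and_eventually h).mono fun _ hs => hs.2 hs.1)

theorem b6V4c_gam {w x : ℂ} (hw : w ≠ x) : ∃ γ : ℝ → ℂ, Continuous γ ∧ γ ‖w - x‖ = w ∧
    ∀ s, 0 < s → ‖γ s - x‖ = s := by
  have hn : 0 < ‖w - x‖ := norm_pos_iff.2 (sub_ne_zero.2 hw)
  refine ⟨fun s => x + (s / ‖w - x‖) • (w - x), by fun_prop, ?_, fun s hs => ?_⟩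
  · simp only [div_self hn.ne', one_smul, add_sub_cancel]
  · simp only [add_sub_cancel_left, norm_smul, Real.norm_eq_abs]
    rw [abs_of_pos (div_pos hs hn), div_mul_cancel₀ _ hn.ne']

theorem b6V4c_tr {Y : Type} [TopologicalSpace Y] [T2Space Y] {G : Set ℝ}
    (hG : ∀ s₀ : ℝ, 0 < s₀ → s₀ ∈ closure G) (hG0 : ∀ s ∈ G, 0 < s) {w x : ℂ} (hw : w ≠ x)
    {φ : ℂ → Y} (hφ : ContinuousAt φ w) {b : Y} (h : ∀ᶠ y in 𝓝 w, ‖y - x‖ ∈ G → φ y = b) :
    φ w = b := by
  obtain ⟨γ, hγ, h1, h2⟩ := b6V4c_gam hw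
  have hn : 0 < ‖w - x‖ := norm_pos_iff.2 (sub_ne_zero.2 hw)
  have ht : Tendsto γ (𝓝 ‖w - x‖) (𝓝 w) := by
    have h3 := hγ.tendsto ‖w - x‖
    rwa [h1] at h3
  have h4 := b6V4c_lim (hG _ hn) (ψ := fun s => φ (γ s)) (b := b)
    (ContinuousAt.comp (by rw [h1]; exact hφ) hγ.continuousAt)
    ((ht.eventually h).mono fun s hs hsG => hs (by rw [h2 s (hG0 s hsG)]; exact hsG))
  rwa [h1] at h4

theorem b6V4c_cont {u v : ℂ → ℝ} {K : Set ℂ} (hv : Conj u K v) : Continuous v := by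
  refine continuous_iff_continuousAt.2 fun z => tendsto_iff_dist_tendsto_zero.2 ?_
  refine squeeze_zero (fun _ => dist_nonneg) (fun y => hv.holder y z) ?_
  have h1 : Continuous fun y => 1000 * √(dist y z) := by fun_prop
  have h2 := h1.tendsto z
  rwa [dist_self, Real.sqrt_zero, mul_zero] at h2

theorem b6V4c_const {G : Set ℝ} (hG : ∀ s₀ : ℝ, 0 < s₀ → s₀ ∈ closure G) (hG0 : ∀ s ∈ G, 0 < s)
    {F : ℝ → ℂ} (h : ∀ s₀ : ℝ, 0 < s₀ → ∃ b, ∀ᶠ s in 𝓝 s₀, s ∈ G → F s = b) :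
    ∃ b, ∀ s ∈ G, F s = b := by
  choose! B hB using h
  have h1 : ∀ s₀ : ℝ, 0 < s₀ → ∀ᶠ s₁ in 𝓝 s₀, B s₁ = B s₀ := by
    intro s₀ hs₀
    filter_upwards [(hB s₀ hs₀).eventually_nhds, lt_mem_nhds hs₀] with s₁ h2 h3
    obtain ⟨s, hs, h4, h5⟩ := ((mem_closure_iff_frequently.1 (hG s₁ h3)).and_eventually
      (h2.and (hB s₁ h3))).exists
    rw [← h4 hs, h5 hs]
  have h2 : IsLocallyConstant fun t => B (Real.exp t) :=
    (IsLocallyConstant.iff_eventually_eq _).2 fun t =>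
      (Real.continuous_exp.tendsto t).eventually (h1 _ (Real.exp_pos t))
  refine ⟨B (Real.exp 0), fun s hs => ?_⟩
  have h3 := h2.apply_eq_of_preconnectedSpace (Real.log s) 0
  rw [Real.exp_log (hG0 s hs)] at h3
  rw [← h3]
  exact (hB s (hG0 s hs)).self_of_nhds hs

theorem b6V4c_off {u v : ℂ → ℝ} {K : Set ℂ} (hv : Conj u K v) (h0 : ∀ z ∈ K, v z = 0) {x : ℂ}
    {d : ℝ} (hd : 0 < d) {G : Set ℝ} (hG0 : ∀ s ∈ G, 0 < s)
    (hgood : ∀ s ∈ G, ∃ e : ℂ, ‖e‖ = 1 ∧ ∀ w ∈ sphere x s,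
      v w ^ 2 = d / Real.pi * (‖w - x‖ - ((w - x) * (starRingEnd ℂ) e).re))
    {s₀ : ℝ} (hs₀ : 0 < s₀) (hG : s₀ ∈ closure G) : ∃ w, ‖w - x‖ = s₀ ∧ w ∉ K := by
  by_contra hn
  push Not at hn
  have hc : IsClosed {s : ℝ | d / Real.pi * (2 * s) ≤ 1000 ^ 2 * |s - s₀|} :=
    isClosed_le (by fun_prop) (by fun_prop)
  have hsub : G ⊆ {s : ℝ | d / Real.pi * (2 * s) ≤ 1000 ^ 2 * |s - s₀|} := by
    intro s hs
    obtain ⟨e, he, h1⟩ := hgood s hs
    have hs0 := hG0 s hs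
    have hn1 : ∀ t : ℝ, 0 < t → ‖x - t * e - x‖ = t := fun t ht => by
      rw [sub_sub_cancel_left, norm_neg, norm_mul, he, mul_one, Complex.norm_real,
        Real.norm_eq_abs, abs_of_pos ht]
    have h2 := h1 (x - s * e) (by rw [mem_sphere, dist_eq_norm]; exact hn1 s hs0)
    have h3 : ((x - s * e - x) * (starRingEnd ℂ) e).re = -s := by
      rw [sub_sub_cancel_left, neg_mul, mul_assoc, Complex.mul_conj, Complex.normSq_eq_norm_sq, he]
      simp
    rw [hn1 s hs0, h3] at h2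
    have h4 := hv.holder (x - s * e) (x - s₀ * e)
    have h5 : dist (x - s * e) (x - s₀ * e) = |s - s₀| := by
      rw [dist_eq_norm, sub_sub_sub_cancel_left, ← sub_mul, norm_mul, he, mul_one,
        ← Complex.ofReal_sub, Complex.norm_real, Real.norm_eq_abs, abs_sub_comm]
    rw [h0 _ (hn _ (hn1 s₀ hs₀)), sub_zero, h5] at h4
    have h6 := pow_le_pow_left₀ (abs_nonneg _) h4 2
    rw [sq_abs, mul_pow, Real.sq_sqrt (abs_nonneg _), h2] at h6
    show d / Real.pi * (2 * s) ≤ 1000 ^ 2 * |s - s₀|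
    linarith
  have h7 : d / Real.pi * (2 * s₀) ≤ 1000 ^ 2 * |s₀ - s₀| := closure_minimal hsub hc hG
  rw [sub_self, abs_zero, mul_zero] at h7
  have h8 : 0 < d / Real.pi * (2 * s₀) := by positivity
  linarith

theorem ray_of_good {u v : ℂ → ℝ} {K : Set ℂ} (hK : IsClosed K)
    (hh : DifferentiableOn ℂ (dz u) Kᶜ) (hv : Conj u K v) (h0 : ∀ z ∈ K, v z = 0) {x : ℂ}
    (hx : x ∈ K) {d : ℝ} (hd : 0 < d) {G : Set ℝ} (hG : ∀ s₀ : ℝ, 0 < s₀ → s₀ ∈ closure G)
    (hG0 : ∀ s ∈ G, 0 < s)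
    (hgood : ∀ s ∈ G, ∃ e : ℂ, ‖e‖ = 1 ∧ x + s * e ∈ K ∧
      (∀ w ∈ sphere x s \ K,
        (w - x) * dz u w ^ 2 = ((d / (2 * Real.pi) : ℝ) : ℂ) * (starRingEnd ℂ) e) ∧
      ∀ w ∈ sphere x s,
        v w ^ 2 = d / Real.pi * (‖w - x‖ - ((w - x) * (starRingEnd ℂ) e).re)) :
    ∃ e : ℂ, ‖e‖ = 1 ∧ K = cone 1 x e ∧
      ∀ w ∉ K, (w - x) * dz u w ^ 2 = ((d / (2 * Real.pi) : ℝ) : ℂ) * (starRingEnd ℂ) e := by
  choose! E hE1 hE2 hE3 hE4 using hgood
  obtain ⟨κ, hκ⟩ : ∃ κ : ℝ, κ = d / (2 * Real.pi) := ⟨_, rfl⟩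
  have hκ0 : 0 < κ := by rw [hκ]; positivity
  rw [← hκ] at hE3 ⊢
  obtain ⟨H, hH⟩ : ∃ H : ℂ → ℂ, ∀ w, H w = (w - x) * dz u w ^ 2 := ⟨_, fun _ => rfl⟩
  have hne : ∀ w ∉ K, w ≠ x := fun w hw h => hw (h ▸ hx)
  have hop : ∀ w ∉ K, ∀ᶠ y in 𝓝 w, y ∉ K := fun w hw => hK.isOpen_compl.mem_nhds hw
  have hHd : ∀ w ∉ K, DifferentiableAt ℂ H w := by
    intro w hw
    rw [funext hH]
    exact (differentiableAt_id.sub_const x).mul ((hh.differentiableAt (hop w hw)).pow 2)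
  have hHG : ∀ y ∉ K, ‖y - x‖ ∈ G → H y = κ * (starRingEnd ℂ) (E ‖y - x‖) := by
    intro y hy hyG
    rw [hH]
    exact hE3 _ hyG y ⟨by rw [mem_sphere, dist_eq_norm], hy⟩
  have hHn : ∀ w ∉ K, ‖H w‖ = κ := by
    intro w hw
    refine b6V4c_tr hG hG0 (hne w hw) (φ := fun y => ‖H y‖) (hHd w hw).continuousAt.norm ?_
    filter_upwards [hop w hw] with y hy hyG
    rw [hHG y hy hyG, norm_mul, Complex.norm_conj, hE1 _ hyG, mul_one, Complex.norm_real,
      Real.norm_eq_abs, abs_of_pos hκ0]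
  have hHc : ∀ w ∉ K, ∀ᶠ y in 𝓝 w, H y = H w := by
    intro w hw
    refine Complex.eventually_eq_of_isLocalMax_norm ((hop w hw).mono fun y hy => hHd y hy) ?_
    filter_upwards [hop w hw] with y hy
    show ‖H y‖ ≤ ‖H w‖
    rw [hHn y hy, hHn w hw]
  obtain ⟨b, hb⟩ := b6V4c_const hG hG0 (F := fun s => κ * (starRingEnd ℂ) (E s)) (by
    intro s₀ hs₀
    obtain ⟨w, hw1, hw2⟩ := b6V4c_off hv h0 hd hG0 (fun s hs => ⟨E s, hE1 s hs, hE4 s hs⟩) hs₀
      (hG s₀ hs₀)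
    obtain ⟨γ, hγ, h1, h2⟩ := b6V4c_gam (hne w hw2)
    have ht : Tendsto γ (𝓝 s₀) (𝓝 w) := by
      have h3 := hγ.tendsto ‖w - x‖
      rwa [h1, hw1] at h3
    refine ⟨H w, ?_⟩
    filter_upwards [ht.eventually (hop w hw2), ht.eventually (hHc w hw2)] with s h3 h4 hs
    have h5 := h2 s (hG0 s hs)
    have h6 := hHG _ h3 (by rw [h5]; exact hs)
    rw [h5] at h6
    rw [← h4, h6])
  obtain ⟨s₁, hs₁⟩ : G.Nonempty := closure_nonempty_iff.1 ⟨1, hG 1 one_pos⟩
  have hEe : ∀ s ∈ G, E s = E s₁ := by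
    intro s hs
    have h1 : (κ : ℂ) * (starRingEnd ℂ) (E s) = κ * (starRingEnd ℂ) (E s₁) :=
      (hb s hs).trans (hb s₁ hs₁).symm
    exact (starRingEnd ℂ).injective (mul_left_cancel₀ (Complex.ofReal_ne_zero.2 hκ0.ne') h1)
  have he := hE1 s₁ hs₁
  generalize E s₁ = e at hEe he
  refine ⟨e, he, ?_, fun w hw => ?_⟩
  · rw [cone_one_eq]
    refine Subset.antisymm (fun w hw => ?_) ?_
    · by_cases hwx : w = x
      · exact ⟨0, le_rfl, by rw [hwx]; simp⟩
      have hvc := b6V4c_cont hv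
      have h1 := b6V4c_tr hG hG0 hwx (b := (0 : ℝ)) (φ := fun y =>
        v y ^ 2 - d / Real.pi * (‖y - x‖ - ((y - x) * (starRingEnd ℂ) e).re))
        (Continuous.continuousAt (by fun_prop)) (Eventually.of_forall fun y hy => by
          have h2 := hE4 _ hy y (by rw [mem_sphere, dist_eq_norm])
          rw [hEe _ hy] at h2
          exact sub_eq_zero.2 h2)
      have h2 : ‖w - x‖ = ((w - x) * (starRingEnd ℂ) e).re := by
        have h3 : d / Real.pi * (‖w - x‖ - ((w - x) * (starRingEnd ℂ) e).re) = 0 := by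
          have h4 := h0 w hw
          simp only [h4] at h1
          linarith
        exact sub_eq_zero.1 ((mul_eq_zero.1 h3).resolve_left (by positivity))
      have h3 : ((w - x) * (starRingEnd ℂ) e).im = 0 := by
        rw [← Complex.abs_re_eq_norm, ← h2, abs_norm, norm_mul, Complex.norm_conj, he, mul_one]
      have h4 : (w - x) * (starRingEnd ℂ) e = (‖w - x‖ : ℝ) :=
        Complex.ext (by rw [Complex.ofReal_re, ← h2]) (by rw [Complex.ofReal_im, h3])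
      refine ⟨‖w - x‖, norm_nonneg _, ?_⟩
      rw [← h4, mul_assoc, mul_comm _ e, Complex.mul_conj, Complex.normSq_eq_norm_sq, he]
      simp
    · rintro w ⟨t, ht, rfl⟩
      rcases ht.eq_or_lt with rfl | ht
      · simpa using hx
      · have hc : IsClosed {s : ℝ | x + s * e ∈ K} := hK.preimage (by fun_prop)
        exact closure_minimal (fun s hs => by
          have h1 := hE2 s hs
          rwa [hEe s hs] at h1) hc (hG t ht)
  · rw [← hH]
    refine b6V4c_tr hG hG0 (hne w hw) (hHd w hw).continuousAt ?_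
    filter_upwards [hop w hw] with y hy hyG
    rw [hHG y hy hyG, hEe _ hyG]

/-- The equality case. -/
theorem V4 {c : ℝ} {u : ℂ → ℝ} {K : Set ℂ} (h : GM c u K) (hz : ZF u K) {x : ℂ} (hx : x ∈ K)
    {d : ℝ} (hd : 0 < d) (hD : ∀ s, 0 < s → D u K x s = d * s) : ∃ e, IsRay u K x e d := by
  obtain ⟨v, hv, h0⟩ := hz
  have hfin : ∀ r, Dir u (ball x r \ K) < ∞ := by
    intro r
    have h1 : Dir u (ball x r \ K) ≤ Dir u (ball x (|r| + 1) \ K) :=
      lintegral_mono_set (diff_subset_diff_left (ball_subset_ball (by linarith [le_abs_self r])))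
    refine lt_of_le_of_lt h1 ?_
    rw [(h.toAM0.upper_real (by positivity) (subset_univ _)).2.1]
    exact ENNReal.ofReal_lt_top
  have hae := (DIZ h hv h0 x).and (Dp_of_linear h.closed hfin hD)
  rw [ae_restrict_iff' measurableSet_Ioi] at hae
  have hden := Measure.dense_of_ae hae
  obtain ⟨e, he, hKe, hsq⟩ := ray_of_good h.closed (by
      have h1 := h.holo
      rwa [← compl_eq_univ_diff] at h1) hv h0 hx hd (G := Ioi 0 ∩ _)
    (fun s₀ hs₀ => hden.open_subset_closure_inter isOpen_Ioi hs₀) (fun s hs => hs.1) (by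
      rintro s ⟨hs, h1⟩
      obtain ⟨⟨-, -, h2⟩, h3⟩ := h1 hs
      have hne := sphere_meets h hx hs
      obtain ⟨h4, h5⟩ := h2 hne
      rw [hD s hs] at h4
      rw [hD s hs, h3, ENNReal.toReal_ofReal hd.le] at h5
      exact good_circle h hv h0 hs hd (one_point hs hd hne h5) h3 h4)
  exact ⟨e, he, hKe, hsq, hD⟩

end Vale.Agent.P128
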