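import Vale.Agent.P128.TA2.Main

/-! P128 B6/ZF (TASK): zero flux passes to limits.

Plan. Let `𝒰 = Filter.hyperfilter ℕ` (`hyperfilter_le_cofinite`, `Nat.cofinite_eq_atTop`, so
`(𝒰 : Filter ℕ) ≤ atTop`). Fix `x₀ ∈ L`. Eventually there is `y ∈ K n ∩ ball x₀ 1` with
`|v n y| ≤ 1`, so `|v n z| ≤ 1 + 1000 * √(dist z x₀ + 1)`; hence `n ↦ v n z` converges along `𝒰`
(`IsCompact.ultrafilter_le_nhds` for `Ultrafilter.map` and `isCompact_Icc`); call the limit `V z`
(`choose`). The Hoelder bound passes to the limit (`le_of_tendsto'`). For `z ∉ L` use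
`hasFDerivAt_of_tendstoUniformlyOnFilter` with the filter `𝒰`: on a closed ball around `z` missing
`L` (eventually missing `K n`) the maps `(fderiv ℝ (u n) ·).comp (mul ℝ ℂ (-I))` converge
uniformly (`‖A.comp J - B.comp J‖ ≤ ‖A - B‖ * ‖J‖`). For `z ∈ L` and `η > 0`, eventually
`|v n z| ≤ η + 1000 * √η`, so `V z = 0`. -/

namespace Vale.Agent.P128

open MeasureTheory Set Metric Filter Topology
open scoped ENNReal NNReal

/-- Zero flux passes to limits. -/
theorem ZF_limit {c : ℝ} {u v : ℕ → ℂ → ℝ} {K : ℕ → Set ℂ} {w : ℂ → ℝ} {L : Set ℂ}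
    (h : ∀ n, GM c (u n) (K n)) (hc : Conv0 u K w L) (hv : ∀ n, Conj (u n) (K n) (v n))
    (h0 : ∀ η : ℝ, 0 < η → ∀ᶠ n in atTop, ∀ z ∈ K n, |v n z| ≤ η) (hL : L.Nonempty) :
    ZF w L := by
  obtain ⟨x₀, hx₀⟩ := hL
  have hU : (hyperfilter ℕ : Filter ℕ) ≤ atTop := Nat.hyperfilter_le_atTop
  have key : ∀ x ∈ L, ∀ η : ℝ, 0 < η →
      ∀ᶠ n in (hyperfilter ℕ : Filter ℕ), ∀ z, |v n z| ≤ η + 1000 * √(dist z x + η) := by
    intro x hx η hη
    refine Eventually.filter_mono hU ?_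
    filter_upwards [hc.low x hx η hη, h0 η hη] with n ⟨y, hyK, hy⟩ hn z
    have a1 := (hv n).holder z y
    have a2 := hn y hyK
    have a3 : √(dist z y) ≤ √(dist z x + η) := Real.sqrt_le_sqrt (by
      linarith [dist_triangle z x y, dist_comm x y, mem_ball.1 hy])
    have a4 := abs_sub_abs_le_abs_sub (v n z) (v n y)
    linarith
  have ex : ∀ z, ∃ a, Tendsto (fun n => v n z) (hyperfilter ℕ : Filter ℕ) (𝓝 a) := fun z => by
    obtain ⟨a, -, ha⟩ := (isCompact_Icc (a := -(1 + 1000 * √(dist z x₀ + 1)))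
      (b := 1 + 1000 * √(dist z x₀ + 1))).ultrafilter_le_nhds
      ((hyperfilter ℕ).map fun n => v n z) (le_principal_iff.2
        ((key x₀ hx₀ 1 one_pos).mono fun n hn => abs_le.1 (hn z)))
    exact ⟨a, ha⟩
  choose V hV using ex
  refine ⟨V, ⟨fun z z' => le_of_tendsto' ((hV z).sub (hV z')).abs fun n => (hv n).holder z z',
    fun z hz => ?_⟩, fun z hz => ?_⟩
  · obtain ⟨r, hr, hb⟩ := nhds_basis_closedBall.mem_iff.1 (hc.closed.isOpen_compl.mem_nhds hz)
    have e1 := hc.up _ (isCompact_closedBall z r) (subset_compl_iff_disjoint_right.1 hb)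
    have e2 : TendstoUniformlyOnFilter (fun n => fderiv ℝ (u n)) (fderiv ℝ w) atTop (𝓝 z) := by
      have := tendstoLocallyUniformlyOn_iff_filter.1 hc.grad z hz
      rwa [hc.closed.isOpen_compl.nhdsWithin_eq hz] at this
    have hg : UniformContinuous fun A : ℂ →L[ℝ] ℝ =>
        A.comp (ContinuousLinearMap.mul ℝ ℂ (-Complex.I)) :=
      ((ContinuousLinearMap.compL ℝ ℂ ℂ ℝ).flip
        (ContinuousLinearMap.mul ℝ ℂ (-Complex.I))).uniformContinuous
    have e3 := (hg.comp_tendstoUniformlyOnFilter e2).mono_left hU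
    refine hasFDerivAt_of_tendstoUniformlyOnFilter (f := v) e3 ?_ (Eventually.of_forall hV)
    filter_upwards [prod_mem_prod (hU e1) (closedBall_mem_nhds z hr)] with p hp
    exact (hv p.1).deriv p.2 (disjoint_left.1 hp.1 hp.2)
  · have a1 : ∀ η : ℝ, η ∈ Ioi (0 : ℝ) → |V z| ≤ η + 1000 * √η := fun η hη =>
      le_of_tendsto (hV z).abs ((key z hz η hη).mono fun n hn => by simpa using hn z)
    have a2 : Continuous fun η : ℝ => η + 1000 * √η := by fun_prop
    have a3 : Tendsto (fun η : ℝ => η + 1000 * √η) (𝓝[>] 0) (𝓝 0) := by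
      simpa using (a2.tendsto 0).mono_left (nhdsWithin_le_nhds (s := Ioi 0))
    exact abs_nonpos_iff.1 (ge_of_tendsto a3 (eventually_nhdsWithin_of_forall a1))

end Vale.Agent.P128
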