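import Vale.Agent.P128.B4.Main
import Vale.Agent.P128.B6.Easy
import Vale.Agent.P128.B6.ZF
import Vale.Agent.P128.B6.V4c
import Vale.Agent.P128.B6.Cst
import Vale.Agent.P128.B6.Fin

/-! P128 block B6: the conjugate function, Bonnet monotonicity, the ray. Interface. The frozen
statements `Conj.rescale`, `Conj.sub_const`, `V3`, `IsRay.low` (B6/Easy), `ZF_limit` (B6/ZF) and
`V4` (B6/V4c) moved unchanged to the imported files. -/

namespace Vale.Agent.P128

open MeasureTheory Set Metric Filter Topology
open scoped ENNReal NNReal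

/-- The conjugate exists, is constant on connected subsets of `K`, has finitely many values. -/
theorem conj_exists {c : ℝ} {u : ℂ → ℝ} {K : Set ℂ} (h : GM c u K) :
    ∃ v, Conj u K v ∧ (∀ C ⊆ K, IsPreconnected C → ∀ p ∈ C, ∀ q ∈ C, v p = v q) ∧
      (v '' K).Finite := by
  have hf : (cj u K '' K).Finite :=
    finite_values h (fun C hCK hC hc p hp q hq => cj_const h hCK hC hc hp hq)
  exact ⟨cj u K, ⟨cj_holder h, fun z hz => cj_deriv h hz⟩,
    const_of_finite (continuous_of_holder (cj_holder h)) hf, hf⟩

end Vale.Agent.P128
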