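import Vale.Agent.P128.B6.Hold

/-! P128 B6/Smo (TASK): a smooth version of the kernel.

Plan. Let `m t = Real.smoothTransition ((t - δ^2) / (3 δ^2))` (smooth, `0` for `t ≤ δ^2`, `1` for
`t ≥ 4 δ^2`), `μ t = m t / t` (smooth: zero near `t ≤ δ^2`; prove `ContDiffAt` by cases
`t < δ^2` or `0 < t`), `G z = μ (‖z‖^2) • (I * z)`, `a s = (1 - m (s^2)) / s^2`,
`b s = 2 * deriv m (s^2)`. For `z ≠ 0`, `ker z = (‖z‖^2)⁻¹ • (I * z)`.
Derivatives: `fderiv G z e = μ • (I * e) + (2 μ' ⟪z, e⟫) • (I * z)` and for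
`ψ z = (G z * conj e).re = μ (‖z‖^2) * (I * z * conj e).re`,
`gr ψ z = (2 μ' (I z conj e).re) • z - μ • (I * e)`; the difference is
`2 (μ + ‖z‖^2 μ') • (I * e) = 2 m' • (I * e)` (check real and imaginary parts with `ring`;
`t μ t = m t` gives `μ + t μ' = m'`). Bounds: `G` and `fderiv G` are continuous, so bounded on
`closedBall 0 (2δ)`; for `‖z‖ > 2δ`, `μ = 1/‖z‖^2`, `μ' = -1/‖z‖^4`, so `‖G z‖ = 1/‖z‖` and
`‖fderiv G z‖ ≤ 3 / ‖z‖^2`. The integral: `s * b s` is the derivative of `s ↦ m (s^2)`. -/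

namespace Vale.Agent.P128

open MeasureTheory Set Metric Filter Topology
open scoped ENNReal NNReal

theorem b6Smo_cut {δ : ℝ} (hδ : 0 < δ) : ∃ (m μ : ℝ → ℝ) (B : ℝ), ContDiff ℝ 2 m ∧
    ContDiff ℝ 2 μ ∧ 0 ≤ B ∧ (∀ t, t * μ t = m t) ∧ (∀ t, 0 ≤ m t ∧ m t ≤ 1) ∧
    (∀ t, 4 * δ ^ 2 ≤ t → m t = 1 ∧ deriv m t = 0) ∧ (∀ t, 0 ≤ t → 0 ≤ μ t ∧ μ t ≤ B) ∧
    ∀ t, 0 ≤ t → |deriv m t| ≤ B ∧ |deriv m t| * t ≤ B := by
  have hd : 0 < δ ^ 2 := by positivity
  obtain ⟨m, hm⟩ : ∃ m : ℝ → ℝ, m = fun t => Real.smoothTransition ((t - δ ^ 2) / (3 * δ ^ 2)) :=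
    ⟨_, rfl⟩
  have hc : ContDiff ℝ 2 m := by
    rw [hm]
    exact (Real.smoothTransition.contDiff (n := 2)).comp
      ((contDiff_id.sub contDiff_const).div_const _)
  have h0 : ∀ t, t ≤ δ ^ 2 → m t = 0 := fun t ht => by
    rw [hm]
    exact Real.smoothTransition.zero_of_nonpos
      (div_nonpos_of_nonpos_of_nonneg (by linarith) (by positivity))
  have h01 : ∀ t, 0 ≤ m t ∧ m t ≤ 1 := fun t => by
    rw [hm]
    exact ⟨Real.smoothTransition.nonneg _, Real.smoothTransition.le_one _⟩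
  have h1 : ∀ t, 4 * δ ^ 2 ≤ t → m t = 1 ∧ deriv m t = 0 := fun t ht => by
    have : m t = 1 := by
      rw [hm]
      exact Real.smoothTransition.one_of_one_le ((one_le_div (by positivity)).2 (by linarith))
    exact ⟨this, IsLocalMax.deriv_eq_zero (Eventually.of_forall fun s => this ▸ (h01 s).2)⟩
  obtain ⟨B, hB⟩ := (isCompact_Icc (a := (0 : ℝ)) (b := 4 * δ ^ 2)).exists_bound_of_continuousOn
    (hc.continuous_deriv (by norm_num)).continuousOn
  have hB0 : 0 ≤ B := (norm_nonneg _).trans (hB 0 ⟨le_rfl, by positivity⟩)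
  have hi : 0 < (δ ^ 2)⁻¹ := by positivity
  have hB4 : 0 ≤ B * (4 * δ ^ 2) := by positivity
  refine ⟨m, fun t => m t / t, (δ ^ 2)⁻¹ + B + B * (4 * δ ^ 2), hc, ?_, by positivity, fun t => ?_,
    h01, h1, fun t ht => ⟨div_nonneg (h01 t).1 ht, ?_⟩, fun t ht => ?_⟩
  · refine contDiff_iff_contDiffAt.2 fun t => ?_
    rcases lt_or_ge t (δ ^ 2) with h | h
    · refine (contDiffAt_const (c := (0 : ℝ))).congr_of_eventuallyEq ?_
      filter_upwards [Iio_mem_nhds h] with s hs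
      rw [h0 s (le_of_lt hs), zero_div]
    · exact hc.contDiffAt.div contDiffAt_id (hd.trans_le h).ne'
  · rcases eq_or_ne t 0 with rfl | h
    · rw [zero_mul, h0 0 hd.le]
    · exact mul_div_cancel₀ _ h
  · rcases le_total t (δ ^ 2) with h | h
    · simp only [h0 t h, zero_div]
      positivity
    · have : m t / t ≤ (δ ^ 2)⁻¹ := by
        rw [← one_div]
        exact div_le_div₀ zero_le_one (h01 t).2 hd h
      linarith
  · rcases le_total t (4 * δ ^ 2) with h | h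
    · have k := hB t ⟨ht, h⟩
      rw [Real.norm_eq_abs] at k
      have := mul_le_mul k h ht hB0
      constructor <;> linarith
    · rw [(h1 t h).2, abs_zero, zero_mul]
      constructor <;> positivity

theorem b6Smo_der {μ : ℝ → ℝ} (hμ : Differentiable ℝ μ) (z e : ℂ) :
    fderiv ℝ (fun w : ℂ => μ (‖w‖ ^ 2) • (Complex.I * w)) z e = μ (‖z‖ ^ 2) • (Complex.I * e) +
      (deriv μ (‖z‖ ^ 2) * (2 * inner ℝ z e)) • (Complex.I * z) := by
  have h1 := (hμ (‖z‖ ^ 2)).hasDerivAt.comp_hasFDerivAt z (hasStrictFDerivAt_norm_sq z).hasFDerivAt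
  have h2 := (hasFDerivAt_id (𝕜 := ℝ) z).const_mul Complex.I
  have h3 := (h1.smul h2).fderiv
  refine (DFunLike.congr_fun h3 e).trans ?_
  simp only [ContinuousLinearMap.add_apply, ContinuousLinearMap.smul_apply,
    ContinuousLinearMap.smulRight_apply, Function.comp_apply, ContinuousLinearMap.id_apply, id,
    smul_eq_mul, innerSL_apply_apply, nsmul_eq_mul, Nat.cast_ofNat]

theorem b6Smo_ker (z : ℂ) : ker z = (‖z‖ ^ 2)⁻¹ • (Complex.I * z) := by
  rcases eq_or_ne z 0 with rfl | h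
  · simp [ker]
  · have h2 : (starRingEnd ℂ) z ≠ 0 := by simpa using h
    rw [ker, Complex.real_smul, Complex.ofReal_inv, Complex.ofReal_pow, ← Complex.mul_conj']
    field_simp

theorem exists_smooth_ker {δ : ℝ} (hδ : 0 < δ) : ∃ (G : ℂ → ℂ) (a b : ℝ → ℝ) (M : ℝ),
    ContDiff ℝ 2 G ∧ Continuous b ∧ 0 ≤ M ∧
    (∀ z, ker z - G z = a ‖z‖ • (Complex.I * z)) ∧ (∀ s, 2 * δ ≤ s → a s = 0 ∧ b s = 0) ∧
    (∀ z, ‖ker z - G z‖ ≤ ‖z‖⁻¹) ∧ Measurable a ∧
    (∫ s in (0 : ℝ)..(2 * δ), s * b s) = 1 ∧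
    (∀ z, ‖G z‖ ≤ M ∧ ‖G z‖ * ‖z‖ ≤ M ∧ ‖fderiv ℝ G z‖ ≤ M ∧ ‖fderiv ℝ G z‖ * ‖z‖ ^ 2 ≤ M) ∧
    ∀ z e : ℂ, fderiv ℝ G z e =
      gr (fun w => (G w * (starRingEnd ℂ) e).re) z + b ‖z‖ • (Complex.I * e) := by
  obtain ⟨m, μ, B, cm, cμ, hB, hmμ, h01, h1, hμB, hmB⟩ := b6Smo_cut hδ
  have dm : Differentiable ℝ m := cm.differentiable (by norm_num)
  have dμ : Differentiable ℝ μ := cμ.differentiable (by norm_num)
  have hder : ∀ t, deriv m t = μ t + t * deriv μ t := fun t => by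
    have := ((hasDerivAt_id t).mul (dμ t).hasDerivAt).deriv
    rw [one_mul] at this
    rw [← funext hmμ]
    exact this
  have cG : ContDiff ℝ 2 fun w : ℂ => μ (‖w‖ ^ 2) • (Complex.I * w) :=
    (cμ.comp (contDiff_norm_sq ℝ)).smul (contDiff_const.mul contDiff_id)
  have cb : Continuous fun s : ℝ => 2 * deriv m (s ^ 2) :=
    continuous_const.mul ((cm.continuous_deriv (by norm_num)).comp (continuous_pow 2))
  have hk : ∀ z : ℂ, ker z - μ (‖z‖ ^ 2) • (Complex.I * z) =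
      ((‖z‖ ^ 2)⁻¹ - μ (‖z‖ ^ 2)) • (Complex.I * z) := fun z => by rw [b6Smo_ker, sub_smul]
  refine ⟨fun w => μ (‖w‖ ^ 2) • (Complex.I * w), fun s => (s ^ 2)⁻¹ - μ (s ^ 2),
    fun s => 2 * deriv m (s ^ 2), 5 * B + 3, cG, cb, by positivity, hk, fun s hs => ?_,
    fun z => ?_, ((measurable_id.pow_const 2).inv).sub
      (cμ.continuous.measurable.comp (measurable_id.pow_const 2)), ?_, fun z => ?_, fun z e => ?_⟩
  · have h4 : 4 * δ ^ 2 ≤ s ^ 2 := by nlinarith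
    have hs0 : s ^ 2 ≠ 0 := (lt_of_lt_of_le (by positivity) h4).ne'
    refine ⟨?_, by simp only [(h1 _ h4).2, mul_zero]⟩
    have := hmμ (s ^ 2)
    rw [(h1 _ h4).1] at this
    exact sub_eq_zero.2 (inv_eq_of_mul_eq_one_right this)
  · rcases eq_or_ne z 0 with rfl | h
    · simp [ker]
    have hz : 0 < ‖z‖ := norm_pos_iff.2 h
    have k1 : μ (‖z‖ ^ 2) ≤ (‖z‖ ^ 2)⁻¹ := by
      rw [← one_div, le_div_iff₀ (by positivity), mul_comm, hmμ]
      exact (h01 _).2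
    rw [hk, norm_smul, norm_mul, Complex.norm_I, one_mul, Real.norm_of_nonneg (sub_nonneg.2 k1)]
    calc _ ≤ (‖z‖ ^ 2)⁻¹ * ‖z‖ :=
          mul_le_mul_of_nonneg_right (sub_le_self _ (hμB _ (by positivity)).1) hz.le
      _ = _ := by field_simp
  · rw [intervalIntegral.integral_eq_sub_of_hasDerivAt (f := fun s => m (s ^ 2))
      (f' := fun s => s * (2 * deriv m (s ^ 2))) (fun s _ => ?_)
      ((continuous_id'.mul cb).intervalIntegrable _ _)]
    · have k0 := hmμ ((0 : ℝ) ^ 2)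
      rw [(h1 _ (by nlinarith)).1, ← k0]
      simp
    · have := (dm (s ^ 2)).hasDerivAt.comp s (hasDerivAt_pow 2 s)
      refine this.congr_deriv ?_
      simp only [Nat.cast_ofNat, Nat.add_one_sub_one, pow_one]
      ring
  · have ht : 0 ≤ ‖z‖ ^ 2 := by positivity
    obtain ⟨k1, k2⟩ := hμB _ ht
    obtain ⟨k3, k4⟩ := hmB _ ht
    have k5 := hmμ (‖z‖ ^ 2)
    have k6 := (h01 (‖z‖ ^ 2)).2
    have nG : ‖μ (‖z‖ ^ 2) • (Complex.I * z)‖ = μ (‖z‖ ^ 2) * ‖z‖ := by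
      rw [norm_smul, norm_mul, Complex.norm_I, one_mul, Real.norm_of_nonneg k1]
    have nD : ‖fderiv ℝ (fun w : ℂ => μ (‖w‖ ^ 2) • (Complex.I * w)) z‖ ≤
        3 * μ (‖z‖ ^ 2) + 2 * |deriv m (‖z‖ ^ 2)| := by
      refine ContinuousLinearMap.opNorm_le_bound _ (by positivity) fun e => ?_
      rw [b6Smo_der dμ]
      refine (norm_add_le _ _).trans ?_
      simp only [norm_smul, norm_mul, Complex.norm_I, one_mul, Real.norm_eq_abs, abs_two,
        abs_of_nonneg k1]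
      have j1 := abs_real_inner_le_norm z e
      have j2 : |deriv μ (‖z‖ ^ 2)| * ‖z‖ ^ 2 ≤ μ (‖z‖ ^ 2) + |deriv m (‖z‖ ^ 2)| := by
        have : deriv μ (‖z‖ ^ 2) * ‖z‖ ^ 2 = deriv m (‖z‖ ^ 2) - μ (‖z‖ ^ 2) := by
          rw [hder]
          ring
        rw [← abs_of_nonneg ht, ← abs_mul, abs_of_nonneg ht, this, add_comm]
        exact (abs_sub _ _).trans (by rw [abs_of_nonneg k1])
      have j3 := mul_le_mul_of_nonneg_left j1
        (mul_nonneg (abs_nonneg (deriv μ (‖z‖ ^ 2))) (norm_nonneg z))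
      have j4 := mul_le_mul_of_nonneg_right j2 (norm_nonneg e)
      nlinarith
    have nD2 := mul_le_mul_of_nonneg_right nD ht
    have k7 : ‖z‖ ≤ 1 + ‖z‖ ^ 2 := by nlinarith [sq_nonneg (‖z‖ - 1)]
    have k8 := mul_le_mul_of_nonneg_left k7 k1
    simp only [nG]
    refine ⟨by nlinarith, by nlinarith, by linarith, by nlinarith⟩
  · have dG := (cG.differentiable (by norm_num) z).hasFDerivAt
    have h2 : ∀ v, fderiv ℝ (fun w : ℂ => (μ (‖w‖ ^ 2) • (Complex.I * w) *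
        (starRingEnd ℂ) e).re) z v =
        (fderiv ℝ (fun w : ℂ => μ (‖w‖ ^ 2) • (Complex.I * w)) z v * (starRingEnd ℂ) e).re := by
      intro v
      have := (Complex.reCLM.hasFDerivAt.comp z (dG.mul_const' ((starRingEnd ℂ) e))).fderiv
      exact DFunLike.congr_fun this v
    simp only [gr, h2, b6Smo_der dμ, hder]
    generalize deriv μ (‖z‖ ^ 2) = d
    generalize μ (‖z‖ ^ 2) = c
    rw [Complex.sq_norm, Complex.normSq_apply]
    apply Complex.ext <;> simp [Complex.inner] <;> ring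


end Vale.Agent.P128
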