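import Vale.Agent.P128.TB.Main

/-! P128 B6/V4a (TASK): the equality case of Bonnet's inequality, one dimensional part.

Plan for `eq_case`. Write `J = Ioo a (a + 2π)`, `f' = s τ`. `τ` and `g` are square integrable on `J`
(each square is bounded by the integrable `τ^2 + g^2`; measurability from `ContinuousOn`), `f` is
bounded. `W1` gives `∫ f^2 ≤ 4 ∫ f'^2 = 4 s^2 ∫ τ^2`. Pointwise
`f^2 / (4 s) + s g^2 - f g = (f / (2 √s) - √s g)^2 = (f - 2 s g)^2 / (4 s) ≥ 0`, so
`d = ∫ f g ≤ ∫ f^2 / (4 s) + s ∫ g^2 ≤ s ∫ τ^2 + s ∫ g^2 = d`. Equality everywhere: the equality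
case of `W1` gives `f t = A sin (π (t - a) / (2π)) = A sin ((t - a)/2)`; `∫ (f - 2 s g)^2 = 0` with a
continuous nonnegative integrand gives `g = f / (2 s)` on `J`
(`setIntegral_eq_zero_iff_of_nonneg_ae`, `Measure.eqOn_open_of_ae_eq` or
`Measure.eqOn_Ioo_of_ae_eq`); uniqueness of derivatives gives `s τ t = (A/2) cos ((t - a)/2)`.
Finally `τ^2 + g^2 = A^2 / (4 s^2)` on `J`, so `d = s * 2π * A^2 / (4 s^2)`. -/

namespace Vale.Agent.P128

open MeasureTheory Set Metric Filter Topology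
open scoped ENNReal NNReal

theorem eq_case {f τ g : ℝ → ℝ} {a s d : ℝ} (hs : 0 < s)
    (hc : ContinuousOn f (Icc a (a + 2 * Real.pi)))
    (hd : ∀ t ∈ Ioo a (a + 2 * Real.pi), HasDerivAt f (s * τ t) t)
    (hτ : ContinuousOn τ (Ioo a (a + 2 * Real.pi))) (hg : ContinuousOn g (Ioo a (a + 2 * Real.pi)))
    (ha : f a = 0) (hb : f (a + 2 * Real.pi) = 0)
    (hI : IntegrableOn (fun t => τ t ^ 2 + g t ^ 2) (Ioo a (a + 2 * Real.pi)))
    (h1 : s * ∫ t in Ioo a (a + 2 * Real.pi), (τ t ^ 2 + g t ^ 2) = d)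
    (h2 : ∫ t in Ioo a (a + 2 * Real.pi), f t * g t = d) :
    ∃ A : ℝ, A ^ 2 = 2 * d * s / Real.pi ∧
      (∀ t ∈ Icc a (a + 2 * Real.pi), f t = A * Real.sin ((t - a) / 2)) ∧
      ∀ t ∈ Ioo a (a + 2 * Real.pi), τ t = A / (2 * s) * Real.cos ((t - a) / 2) ∧
        g t = A / (2 * s) * Real.sin ((t - a) / 2) := by
  have hπ := Real.pi_pos
  have hab : a < a + 2 * Real.pi := by linarith
  set J := Ioo a (a + 2 * Real.pi) with hJ
  have mJ : MeasurableSet J := measurableSet_Ioo
  have mτ := hτ.aestronglyMeasurable (μ := volume) mJ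
  have mg := hg.aestronglyMeasurable (μ := volume) mJ
  have iτ : IntegrableOn (fun t => τ t ^ 2) J :=
    Integrable.mono' hI (mτ.pow 2) (Eventually.of_forall fun t => by
      rw [Real.norm_of_nonneg (sq_nonneg _)]
      linarith [sq_nonneg (g t)])
  have ig : IntegrableOn (fun t => g t ^ 2) J :=
    Integrable.mono' hI (mg.pow 2) (Eventually.of_forall fun t => by
      rw [Real.norm_of_nonneg (sq_nonneg _)]
      linarith [sq_nonneg (τ t)])
  have Lτ : MemLp τ 2 (volume.restrict J) := (memLp_two_iff_integrable_sq mτ).2 iτ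
  have Lg : MemLp g 2 (volume.restrict J) := (memLp_two_iff_integrable_sq mg).2 ig
  have Lf : MemLp f 2 (volume.restrict J) := w2_memc hc
  have i1 : IntegrableOn (fun t => f t ^ 2) J := Lf.integrable_sq
  have i2 : IntegrableOn (fun t => f t * g t) J := Lf.integrable_mul Lg
  obtain ⟨w1, w2⟩ := W1 (f' := fun t => s * τ t) hab hc hd (hτ.const_smul s) (Lτ.const_mul s) ha hb
  have e1 : ((a + 2 * Real.pi - a) / Real.pi) ^ 2 * ∫ t in J, (s * τ t) ^ 2 =
      4 * s ^ 2 * ∫ t in J, τ t ^ 2 := by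
    simp only [mul_pow, integral_const_mul]
    field_simp
    ring
  rw [e1] at w1 w2
  rw [integral_add iτ ig] at h1
  have i3 : IntegrableOn (fun t => (f t - 2 * s * g t) ^ 2) J :=
    (Lf.sub (Lg.const_mul (2 * s))).integrable_sq
  have e2 : ∫ t in J, (f t - 2 * s * g t) ^ 2 =
      (∫ t in J, f t ^ 2) - 4 * s * d + 4 * s ^ 2 * ∫ t in J, g t ^ 2 := by
    have i4 : IntegrableOn (fun t => f t ^ 2 - 4 * s * (f t * g t)) J := i1.sub (i2.const_mul _)
    rw [← h2, ← integral_const_mul, ← integral_const_mul, ← integral_sub i1 (i2.const_mul _),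
      ← integral_add i4 (ig.const_mul _)]
    refine integral_congr_ae (Eventually.of_forall fun t => ?_)
    simp only
    ring
  have p2 : 0 ≤ ∫ t in J, (f t - 2 * s * g t) ^ 2 := integral_nonneg fun t => sq_nonneg _
  have e3 : ∫ t in J, f t ^ 2 = 4 * s ^ 2 * ∫ t in J, τ t ^ 2 := by
    rw [e2, ← h1] at p2
    exact le_antisymm w1 (by linarith)
  have e4 : ∫ t in J, (f t - 2 * s * g t) ^ 2 = 0 := by
    rw [e2, e3, ← h1]
    ring
  obtain ⟨A, hA⟩ := w2 e3
  have hA' : ∀ t ∈ Icc a (a + 2 * Real.pi), f t = A * Real.sin ((t - a) / 2) := fun t ht => by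
    rw [hA t ht]
    congr 2
    field_simp
    ring
  have e5 : EqOn (fun t => (f t - 2 * s * g t) ^ 2) (fun _ => 0) J :=
    Measure.eqOn_open_of_ae_eq
      ((integral_eq_zero_iff_of_nonneg (fun t => sq_nonneg _) i3).1 e4) isOpen_Ioo
      (((hc.mono Ioo_subset_Icc_self).sub (hg.const_smul (2 * s))).pow 2) continuousOn_const
  have fin : ∀ t ∈ J, τ t = A / (2 * s) * Real.cos ((t - a) / 2) ∧
      g t = A / (2 * s) * Real.sin ((t - a) / 2) := fun t ht => by
    constructor
    · have d1 : HasDerivAt (fun t => A * Real.sin ((t - a) / 2))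
          (A * (Real.cos ((t - a) / 2) * (1 / 2))) t :=
        (((hasDerivAt_id' t).sub_const a).div_const 2).sin.const_mul A
      have d2 := (hd t ht).unique (d1.congr_of_eventuallyEq
        (mem_of_superset (isOpen_Ioo.mem_nhds ht) fun r hr => hA' r (Ioo_subset_Icc_self hr)))
      field_simp
      linarith
    · have d3 : f t - 2 * s * g t = 0 := pow_eq_zero_iff two_ne_zero |>.1 (e5 ht)
      rw [hA' t (Ioo_subset_Icc_self ht)] at d3
      field_simp
      linarith
  refine ⟨A, ?_, hA', fin⟩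
  have e6 : ∫ t in J, (τ t ^ 2 + g t ^ 2) = ∫ _ in J, (A / (2 * s)) ^ 2 :=
    setIntegral_congr_fun mJ fun t ht => by
      simp only [(fin t ht).1, (fin t ht).2]
      linear_combination (A / (2 * s)) ^ 2 * Real.cos_sq_add_sin_sq ((t - a) / 2)
  rw [integral_add iτ ig, setIntegral_const, Real.volume_real_Ioo_of_le hab.le] at e6
  rw [← h1, e6, smul_eq_mul]
  field_simp
  ring

end Vale.Agent.P128
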