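import Vale.Agent.P128.B6.V4a

/-! P128 B6/V4b (TASK): the equality case of Bonnet's inequality on one circle.

Plan for `one_point`. Use `arcs` to get `n, θ`. If `n ≥ 2`, let `ω` be the maximum of
`θ (j+1) - θ j` over `j < n`; it is `< 2π` because the `n ≥ 2` positive differences add up to
`2π`. `Gap K x s ω` holds: (simpler: take two distinct points `circleMap x s α`, `circleMap x s β`
of `K` with `α < β < α + 2π`, `ω = max (β - α) (α + 2π - β) < 2π`; any closed interval of length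
`ω` contains a translate by a multiple of `2π` of `α` or `β`: use `toIcoMod` for `α`.) Then `hgap`
gives `d s ≤ ω / (2π) * s * d < d s`. So the nonempty set is a singleton.
Plan for `good_circle`. Let `K ∩ sphere x s = {circleMap x s a}` and `e = exp (a I)`. With
`w t = circleMap x s t`, `f t = v (w t)`, `F = dz u`, `τ t = (F (w t) * exp (t I)).re`,
`g t = (F (w t) * exp (t I)).im`: from `hv.deriv` and `fderiv_eq_dz`,
`fderiv ℝ v (w t) p = (F (w t) * p).im`, so `f` has derivative `s * τ t` (`hasDerivAt_circleMap`) and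
`g t = fderiv ℝ v (w t) (circleMap 0 1 t)`; `τ^2 + g^2 = ‖F‖^2 = ‖fderiv ℝ u (w t)‖^2` (`norm_dz`).
The integrals over `offK K x s` are integrals over `Ioo a (a + 2π)` by `arcs` with `n = 1` (take
`a = θ 0`). Apply `eq_case`. Then `F (w t) * exp (t I) = A/(2s) * exp ((t - a)/2 * I)`; square,
multiply by `s * exp (-t I)`. And `v^2 = A^2 sin^2 ((t-a)/2) = A^2 (1 - cos (t - a)) / 2`.
Every point of the circle is `w t` with `t ∈ Ico a (a + 2π)`. -/

namespace Vale.Agent.P128

open MeasureTheory Set Metric Filter Topology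
open scoped ENNReal NNReal

theorem one_point {K : Set ℂ} {x : ℂ} {s d : ℝ} (hs : 0 < s) (hd : 0 < d)
    (hne : (K ∩ sphere x s).Nonempty)
    (hgap : ∀ ω : ℝ, 0 < ω → ω ≤ 2 * Real.pi → Gap K x s ω → d * s ≤ ω / (2 * Real.pi) * s * d) :
    (K ∩ sphere x s).encard = 1 := by
  obtain ⟨p, hp⟩ := hne
  refine encard_eq_one.2 ⟨p, eq_singleton_iff_unique_mem.2 ⟨hp, fun q hq => ?_⟩⟩
  by_contra hqp
  have hπ := Real.two_pi_pos
  obtain ⟨α, -, rfl⟩ := ac_ang hs hp.2 0
  obtain ⟨β, hβ, rfl⟩ := ac_ang hs hq.2 α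
  have hlt : α < β := lt_of_le_of_ne hβ.1 fun e => hqp (by rw [e])
  have h1 := le_max_left (β - α) (α + 2 * Real.pi - β)
  have h2 := le_max_right (β - α) (α + 2 * Real.pi - β)
  have h3 : max (β - α) (α + 2 * Real.pi - β) < 2 * Real.pi :=
    max_lt (by linarith [hβ.2]) (by linarith)
  set ω := max (β - α) (α + 2 * Real.pi - β)
  have hG : Gap K x s ω := by
    intro t
    have m := toIcoMod_mem_Ico hπ t α
    rw [← self_sub_toIcoDiv_zsmul] at m
    set k := toIcoDiv hπ t α
    by_cases hc : α - k • (2 * Real.pi) ≤ t + ω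
    · refine ⟨_, ⟨m.1, hc⟩, ?_⟩
      rw [(periodic_circleMap x s).sub_zsmul_eq]
      exact hp.1
    · refine ⟨β - (k + 1) • (2 * Real.pi), ?_, ?_⟩
      · rw [add_zsmul, one_zsmul]
        constructor <;> linarith [m.2]
      · rw [(periodic_circleMap x s).sub_zsmul_eq]
        exact hq.1
  have h4 := hgap ω (by linarith) h3.le hG
  have h5 : ω / (2 * Real.pi) < 1 := (div_lt_one hπ).2 h3
  nlinarith [mul_pos hd hs]

theorem b6V4b_int {K : Set ℂ} {x : ℂ} {s : ℝ} {n : ℕ} {θ : ℕ → ℝ} (hA : Arcs K x s n θ)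
    (hs : 0 < s) {g : ℝ → ℝ} (hp : Function.Periodic g (2 * Real.pi)) (a : ℝ) :
    ∫ t in offK K x s, g t = ∫ t in Ioo a (a + 2 * Real.pi), g t := by
  have hπ := Real.pi_pos
  rw [setIntegral_congr_set (ab_ae hA hs), ← integral_Ioc_eq_integral_Ioo,
    ← intervalIntegral.integral_of_le (by linarith), ← intervalIntegral.integral_of_le (by linarith),
    ← hp.intervalIntegral_add_eq (-Real.pi) a]
  congr 1
  ring

theorem b6V4b_alg {F : ℂ} {s A d t a : ℝ} (hs : 0 < s) (hA : A ^ 2 = 2 * d * s / Real.pi)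
    (h1 : (F * circleMap 0 1 t).re = A / (2 * s) * Real.cos ((t - a) / 2))
    (h2 : -(F * (circleMap 0 1 t * Complex.I)).re = A / (2 * s) * Real.sin ((t - a) / 2)) :
    circleMap 0 s t * F ^ 2 =
      ((d / (2 * Real.pi) : ℝ) : ℂ) * (starRingEnd ℂ) (circleMap 0 1 a) := by
  have hπ := Real.pi_pos
  set E : ℂ := circleMap 0 1 ((t - a) / 2) with hE
  have e1 : F * circleMap 0 1 t = ((A / (2 * s) : ℝ) : ℂ) * E := by
    apply Complex.ext
    · rw [h1, Complex.re_ofReal_mul, hE, circleMap_zero_re, one_mul]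
    · rw [Complex.im_ofReal_mul, hE, circleMap_zero_im, one_mul, ← h2, ← mul_assoc,
        Complex.mul_I_re, neg_neg]
  have e2 : circleMap 0 1 t = E ^ 2 * circleMap 0 1 a := by
    rw [hE, circleMap_zero_pow, circleMap_zero_mul]
    congr 1
    · norm_num
    · push_cast; ring
  have e3 : (starRingEnd ℂ) (circleMap 0 1 a) * circleMap 0 1 a = 1 := by
    rw [Complex.conj_mul', norm_circleMap_zero]
    simp
  have e4 : circleMap 0 s t = s * circleMap 0 1 t := by
    rw [kit_smul, Complex.real_smul]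
  have e5 : ((d / (2 * Real.pi) : ℝ) : ℂ) = s * ((A / (2 * s) : ℝ) : ℂ) ^ 2 := by
    have : d / (2 * Real.pi) = s * (A / (2 * s)) ^ 2 := by
      rw [div_pow, hA]; field_simp
    rw [this]; push_cast; ring
  have n0 : circleMap 0 1 t ≠ 0 := circleMap_ne_center one_ne_zero
  apply mul_right_cancel₀ n0
  rw [e4, e5]
  calc s * circleMap 0 1 t * F ^ 2 * circleMap 0 1 t = s * (F * circleMap 0 1 t) ^ 2 := by ring
    _ = s * ((A / (2 * s) : ℝ) : ℂ) ^ 2 * E ^ 2 *
        ((starRingEnd ℂ) (circleMap 0 1 a) * circleMap 0 1 a) := by rw [e1, e3]; ring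
    _ = _ := by rw [e2]; ring

theorem good_circle {c : ℝ} {u v : ℂ → ℝ} {K : Set ℂ} (h : GM c u K) (hv : Conj u K v)
    (h0 : ∀ z ∈ K, v z = 0) {x : ℂ} {s d : ℝ} (hs : 0 < s) (hd : 0 < d)
    (h1 : (K ∩ sphere x s).encard = 1) (hDp : Dp u K x s = ENNReal.ofReal d)
    (hflux : d * s = ∫ θ in offK K x s, s * (v (circleMap x s θ) *
      fderiv ℝ v (circleMap x s θ) (circleMap 0 1 θ))) :
    ∃ e : ℂ, ‖e‖ = 1 ∧ x + s * e ∈ K ∧
      (∀ w ∈ sphere x s \ K,
        (w - x) * dz u w ^ 2 = ((d / (2 * Real.pi) : ℝ) : ℂ) * (starRingEnd ℂ) e) ∧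
      ∀ w ∈ sphere x s,
        v w ^ 2 = d / Real.pi * (‖w - x‖ - ((w - x) * (starRingEnd ℂ) e).re) := by
  have hπ := Real.pi_pos
  obtain ⟨n, θ, hA⟩ := exists_arcs hs (finite_of_encard_eq_coe (k := 1) h1)
    (nonempty_of_encard_ne_zero (by rw [h1]; exact one_ne_zero))
  have hn : n = 1 := by
    have := hA.card
    rw [h1] at this
    exact_mod_cast this.symm
  subst hn
  set a := θ 0 with ha
  have ht : θ (0 + 1) = a + 2 * Real.pi := hA.per 0
  have hoff : ∀ t ∈ Ioo a (a + 2 * Real.pi), circleMap x s t ∉ K := by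
    intro t h'
    exact hA.off 0 t (by rw [ht]; exact h')
  have hfin : Dp u K x s < ∞ := by rw [hDp]; exact ENNReal.ofReal_lt_top
  obtain ⟨i1, i2, i3⟩ := Dp_int hs hfin
  rw [hDp, ENNReal.toReal_ofReal hd.le] at i3
  have p1 := per_sq (un_per u x s).1
  have p2 := per_sq (un_per u x s).2
  have j1 := ((hA.int hs p1).1.1 i1) 0
  have j2 := ((hA.int hs p2).1.1 i2) 0
  rw [ht] at j1 j2
  rw [b6V4b_int hA hs p1 a, b6V4b_int hA hs p2 a] at i3
  have hc := un_cont (y := x) (s := s) h.toAM0.cont_fd (I := Ioo a (a + 2 * Real.pi))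
    (fun t h' => ⟨mem_univ _, hoff t h'⟩)
  have p3 : Function.Periodic (fun t => s * (v (circleMap x s t) * un v x s t)) (2 * Real.pi) := by
    intro t
    simp only [(un_per v x s).1 t, periodic_circleMap x s t]
  have hfl : d * s = ∫ t in Ioo a (a + 2 * Real.pi), s * (v (circleMap x s t) * -ut u x s t) := by
    rw [hflux]
    refine (b6V4b_int hA hs p3 a).trans (setIntegral_congr_fun measurableSet_Ioo fun t h' => ?_)
    simp only [(diz_un hv (hoff t h')).1]
  rw [integral_const_mul] at hfl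
  obtain ⟨A, hA2, hf, hτ⟩ := eq_case (f := fun t => v (circleMap x s t)) (τ := un u x s)
    (g := fun t => -ut u x s t) (a := a) (d := d) hs
    ((diz_cont hv).comp (continuous_circleMap x s)).continuousOn
    (fun t h' => by
      have := circ_der (hv.deriv _ (hoff t h')).differentiableAt
      rwa [(diz_un hv (hoff t h')).2] at this)
    hc.1 hc.2.neg (h0 _ (hA.mem 0))
    (by rw [periodic_circleMap x s a]; exact h0 _ (hA.mem 0))
    (by simp only [neg_sq]; exact j1.add j2)
    (by simp only [neg_sq]; rw [integral_add j1 j2]; exact i3.symm)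
    (mul_left_cancel₀ hs.ne' (by rw [← hfl, mul_comm]))
  refine ⟨circleMap 0 1 a, by rw [norm_circleMap_zero, abs_one], ?_, ?_, ?_⟩
  · have := hA.mem 0
    rwa [← ha, ← add_sub_cancel x (circleMap x s a), circleMap_sub_center, kit_smul,
      Complex.real_smul] at this
  · intro w hw
    obtain ⟨t, h', rfl⟩ := ac_ang hs hw.1 a
    have h2 : t ∈ Ioo a (a + 2 * Real.pi) :=
      ⟨lt_of_le_of_ne h'.1 fun e => hw.2 (by rw [← e]; exact hA.mem 0), h'.2⟩
    obtain ⟨k1, k2⟩ := hτ t h2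
    rw [circleMap_sub_center]
    simp only [un, ut, fderiv_eq_dz] at k1 k2
    exact b6V4b_alg hs hA2 k1 k2
  · intro w hw
    obtain ⟨t, h', rfl⟩ := ac_ang hs hw a
    have k := hf t (Ico_subset_Icc_self h')
    rw [k, circleMap_sub_center, norm_circleMap_zero, abs_of_pos hs, conj_circleMap_zero,
      circleMap_zero_mul, circleMap_zero_re, mul_pow, hA2, Real.sin_sq_eq_half_sub,
      show 2 * ((t - a) / 2) = t + -a by ring]
    field_simp

end Vale.Agent.P128
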